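import Vale.Agent.P004Z.St
import Vale.Agent.P004Z.H.Loc
import Vale.Agent.P022K.F0.Cf.Defs
import Vale.Agent.P022.H218.L3.Deg

/-! # P004Z, block G6: the finite places (statements) -/

set_option autoImplicit false

open UpperHalfPlane CongruenceSubgroup
open scoped MatrixGroups NumberTheorySymbols Classical

noncomputable section

namespace Vale.Agent.P004Z.Fin

open Vale.Agent.P022.H218.L3 Vale.Agent.P004H.H666
open Vale.Agent.P022K.F0.Cf (od ev Reg)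

/-- `V` lies over `p` -/
structure Ov (V : AbsoluteValue ℂ ℝ) (p : ℕ) : Prop where
  prime : p.Prime
  na : IsNonarchimedean V
  lt : V p < 1

/-- `u` does not meet `s` at the place `V` -/
structure Far (V : AbsoluteValue ℂ ℝ) (s : Finset ℍ) (u : ℍ → ℤ) : Prop where
  bd : (Set.range u).Finite
  fin : (jf '' Function.support u).Finite
  far : ∀ τ, u τ ≠ 0 → ∀ b ∈ s, 1 ≤ V (jf τ - jf b)

/-- a parametrisation `π` with ramification `e`; `xm M` is the function `x (π - M)` -/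
structure Pk (N : ℕ) (A B : ℂ) (π : ℍ → (crv A B).Point) (e : ℍ → ℕ)
    (xm : (crv A B).Point → Mer) : Prop where
  hD : 16 * (4 * A ^ 3 + 27 * B ^ 2) ≠ 0
  mem : ∀ M, xm M ∈ MF (Gamma0 N)
  val : ∀ M τ, π τ ≠ M → Reg τ (xm M) ∧ ev τ (xm M) = xp (π τ - M)
  ne : ∀ M c, xm M ≠ algebraMap ℂ Mer c
  ord : ∀ M Z τ, Z ≠ 0 → od τ (xm M - algebraMap ℂ Mer (xp Z)) = e τ *
    ((if π τ = M + Z then 1 else 0) + (if π τ = M - Z then 1 else 0) - if π τ = M then 2 else 0)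

/-- places of `ℂ` -/
def EXT : Prop := ∀ p : ℕ, p.Prime →
  ∃ V : AbsoluteValue ℂ ℝ, IsNonarchimedean V ∧ V p = (p : ℝ)⁻¹

/-- singular moduli are algebraic integers -/
def INT : Prop := ∀ (l : Fm) (τ : ℍ), l ≠ 0 → evq l τ = 0 → IsIntegral ℤ (jf τ)

/-- different fields, `p` split in one of them -/
def R2 : Prop := ∀ (V : AbsoluteValue ℂ ℝ) (p : ℕ) (l l' : Fm) (τ τ' : ℍ) (f D x : ℤ), Ov V p →
  l ≠ 0 → l' ≠ 0 → evq l τ = 0 → evq l' τ' = 0 → ¬ IsSquare (disc l * disc l') →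
  disc l = f ^ 2 * D → (4 * p : ℤ) ∣ x ^ 2 - D → ¬ (p : ℤ) ∣ x → 1 ≤ V (jf τ - jf τ')

/-- the Heegner divisors off the square class -/
def OFF : Prop := DIVS → BDV → ∀ (N : ℕ) [NeZero N] (δ δ' : ℕ) (β : ℤ) (s : Finset ℍ),
  Dat N δ δ' β → (∀ b ∈ s, Bd N δ δ' β b ≠ 0) → ∀ (n : ℕ) (r : ZMod (2 * N)),
  ¬ IsSquare (δ * δ' * n) →
  (∀ p V, Ov V p → Spl δ' p ∨ J(-((δ : ℤ) * n) | p) = 1 → Far V s (Zd N δ n r)) ∧
  {p : ℕ | ∃ V, Ov V p ∧ ¬ Far V s (Zd N δ n r)}.Finite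

/-- functions whose divisor does not meet `s` -/
def FN0 : Prop := ∀ (N : ℕ) [NeZero N] (δ δ' : ℕ) (β : ℤ) (s : Finset ℍ) (p : ℕ)
  (V : AbsoluteValue ℂ ℝ), Dat N δ δ' β → (∀ b ∈ s, Bd N δ δ' β b ≠ 0) → Ov V p →
  ∀ h ∈ MF (Gamma0 N), h ≠ 0 → Far V s (fun τ => od τ h) → ∃ c, ∀ b ∈ s, V (ev b h) = c

/-- **the local symbol**: `div h = u + π^* d` -/
def FN : Prop := ∀ (N : ℕ) [NeZero N] (δ δ' : ℕ) (β : ℤ) (s : Finset ℍ) (p : ℕ)
  (V : AbsoluteValue ℂ ℝ) (A B : ℂ) (π : ℍ → (crv A B).Point) (e : ℍ → ℕ)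
  (xm : (crv A B).Point → Mer), Dat N δ δ' β → (∀ b ∈ s, Bd N δ δ' β b ≠ 0) → Ov V p →
  Pk N A B π e xm → ∀ h ∈ MF (Gamma0 N), h ≠ 0 → ∀ u, Far V s u →
  ∀ d : (crv A B).Point →₀ ℤ, (d.sum fun _ k => k) = 0 → (∀ b ∈ s, d (π b) = 0) →
  (∀ τ, od τ h = u τ + e τ * d (π τ)) →
  ∃ c : ℝ, ∀ b ∈ s, Real.log (V (ev b h)) + (d.sum fun Y k => k * H.lam V (π b - Y)) = c

section
variable {V : AbsoluteValue ℂ ℝ} {s : Finset ℍ} {u u' : ℍ → ℤ}

theorem Far.zero : Far V s 0 := ⟨Set.finite_range_const, by simp, fun _ h => absurd rfl h⟩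

theorem Far.add (h : Far V s u) (h' : Far V s u') : Far V s (u + u') := by
  refine ⟨(h.bd.image2 (· + ·) h'.bd).subset ?_, (h.fin.union h'.fin).subset ?_, fun τ e => ?_⟩
  · rintro _ ⟨τ, rfl⟩
    exact ⟨_, ⟨τ, rfl⟩, _, ⟨τ, rfl⟩, rfl⟩
  · rw [← Set.image_union]
    exact Set.image_mono (Function.support_add _ _)
  · rcases Function.support_add u u' e with e | e
    exacts [h.far τ e, h'.far τ e]

theorem Far.smul (h : Far V s u) (k : ℤ) : Far V s (k • u) := by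
  refine ⟨(h.bd.image (k * ·)).subset ?_, h.fin.subset (Set.image_mono fun τ e => ?_),
    fun τ e => h.far τ (right_ne_zero_of_mul e)⟩
  · rintro _ ⟨τ, rfl⟩
    exact ⟨_, ⟨τ, rfl⟩, rfl⟩
  · exact right_ne_zero_of_mul e

theorem Far.sum {ι : Type*} (t : Finset ι) {u : ι → ℍ → ℤ} (h : ∀ i ∈ t, Far V s (u i)) :
    Far V s (∑ i ∈ t, u i) :=
  Finset.sum_induction _ _ (fun _ _ => Far.add) Far.zero h

theorem Ov.comp {p : ℕ} (h : Ov V p) (σ : ℂ →+* ℂ) : Ov (V.comp σ.injective) p :=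
  ⟨h.prime, fun a b => by
    change V (σ (a + b)) ≤ max (V (σ a)) (V (σ b))
    rw [map_add]
    exact h.na _ _, by
    change V (σ p) < 1
    rw [map_natCast]
    exact h.lt⟩

end

/-- extension of additive functionals -/
theorem ex_add {T D : Type*} [AddCommGroup T] [AddCommGroup D] (φ : T →+ D) (ψ : T →+ ℝ)
    (h : ∀ t, φ t = 0 → ψ t = 0) : ∃ I : D →+ ℝ, ∀ t, I (φ t) = ψ t := by
  let q := QuotientAddGroup.lift φ.ker ψ h
  obtain ⟨I, hI⟩ := (Module.Baer.of_divisible ℝ).extension_property_addMonoidHom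
    (QuotientAddGroup.kerLift φ) (QuotientAddGroup.kerLift_injective φ) q
  exact ⟨I, fun t => DFunLike.congr_fun hI (QuotientAddGroup.mk t)⟩

end Vale.Agent.P004Z.Fin
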