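import Vale.Agent.P004Z.Fin.Bas

/-! # P004Z, block G6: places of `ℂ`, singular moduli, quotients of discriminants -/

set_option autoImplicit false
set_option linter.all false

open UpperHalfPlane hiding I
open Polynomial CongruenceSubgroup
open scoped MatrixGroups ModularForm Manifold Classical

noncomputable section

namespace Vale.Agent.P004Z.Fin

open Vale.Agent.P022.H218.L3 Vale.Agent.P022.H231.L3 Vale.Agent.P022.H236.L3
  Vale.Agent.P022.H542.L3 Vale.Agent.P022D.Irr Vale.Agent.P027M.M Vale.Agent.P004M.D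
  Vale.Agent.P022D

open Cardinal in
theorem ext : EXT := fun p hp => by
  haveI := Fact.mk hp
  have h1 : #ℚ_[p] ≤ 𝔠 := (mk_quotient_le (s := CauSeq.equiv)).trans
    ((mk_subtype_le _).trans (by simp))
  have h2 : #(PadicAlgCl p) = #ℂ := by
    rw [mk_complex]
    exact le_antisymm ((Algebra.IsAlgebraic.cardinalMk_le_max ℚ_[p] _).trans
      (max_le h1 aleph0_le_continuum)) ((continuum_le_cardinal_of_nontriviallyNormedField _).trans
        (mk_le_of_injective (algebraMap ℚ_[p] (PadicAlgCl p)).injective))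
  haveI : CharZero (PadicAlgCl p) := charZero_of_injective_algebraMap (algebraMap ℚ_[p] _).injective
  obtain ⟨e⟩ := IsAlgClosed.ringEquiv_of_equiv_of_charZero (K := ℂ)
    (by rw [mk_complex]; exact aleph0_lt_continuum) (Cardinal.eq.1 h2.symm)
  refine ⟨(NormedField.toAbsoluteValue _).comp (e : ℂ →+* PadicAlgCl p).injective,
    fun a b => ?_, ?_⟩
  · change ‖e (a + b)‖ ≤ max ‖e a‖ ‖e b‖
    rw [map_add]
    exact PadicAlgCl.isNonarchimedean p _ _
  · change ‖e p‖ = _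
    rw [map_natCast, ← map_natCast (algebraMap ℚ_[p] (PadicAlgCl p)), norm_algebraMap',
      Padic.norm_p]

variable {O : ValuationSubring ℂ}

/-! ### endomorphisms -/

section fm
variable {l : Fm} {τ : ℍ}

theorem evq_sq (h : evq l τ = 0) : (2 * l.1 * (τ : ℂ) + l.2.1) ^ 2 = disc l := by
  rw [evq] at h
  rw [disc]
  push_cast
  linear_combination 4 * l.1 * h

theorem fst_ne (h0 : l ≠ 0) (h : evq l τ = 0) : l.1 ≠ 0 := fun e => by
  obtain ⟨a, b, c⟩ := l
  obtain rfl : a = 0 := e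
  have h1 : (b : ℝ) * τ.im = 0 := by simpa [evq] using congrArg Complex.im h
  obtain rfl : b = 0 := by exact_mod_cast (mul_eq_zero.1 h1).resolve_right τ.im_pos.ne'
  obtain rfl : c = 0 := by simpa [evq] using h
  exact h0 rfl

theorem disc_neg (h0 : l ≠ 0) (h : evq l τ = 0) : disc l < 0 := by
  have h1 := evq_sq h
  obtain ⟨w, hw⟩ : ∃ w, w = 2 * l.1 * (τ : ℂ) + l.2.1 := ⟨_, rfl⟩
  have h2 : w.im ≠ 0 := by simpa [hw, τ.im_pos.ne'] using fst_ne h0 h
  rw [← hw, sq] at h1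
  have h3 := congrArg Complex.re h1
  have h4 := congrArg Complex.im h1
  simp only [Complex.mul_re, Complex.mul_im, Complex.intCast_re, Complex.intCast_im] at h3 h4
  have h5 : w.re = 0 := (mul_eq_zero.1 (by linarith : w.re * w.im = 0)).resolve_right h2
  have : (disc l : ℝ) < 0 := by
    rw [← h3, h5]
    simpa using h2
  exact_mod_cast this

/-- multiplication by `a τ + k` -/
def En (l : Fm) (k : ℤ) : M2 := !![k - l.2.1, -l.2.2; l.1, k]

theorem En_det (l : Fm) (k : ℤ) : 4 * (En l k).det = (2 * k - l.2.1) ^ 2 - disc l := by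
  rw [En, Matrix.det_fin_two_of, disc]
  ring

theorem En_pos (h : disc l < 0) (k : ℤ) : 0 < (En l k).det := by
  have := En_det l k
  nlinarith [sq_nonneg (2 * k - l.2.1)]

theorem mo_of {A : M2} (hA : 0 < A.det) {σ : ℍ} (h : σ * den A τ = A 0 0 * τ + A 0 1) :
    mo A τ = σ := UpperHalfPlane.ext (by rw [mo_coe hA, ← h, mul_div_cancel_right₀ _ (den_ne hA τ)])

theorem En_den (k : ℤ) : den (En l k) τ = l.1 * τ + k := by simp [den, En]

theorem En_fix (h0 : disc l < 0) (h : evq l τ = 0) (k : ℤ) : mo (En l k) τ = τ :=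
  mo_of (En_pos h0 k) (by
    rw [evq] at h
    simp only [En_den]
    simp [En]
    linear_combination h)

end fm

theorem root_int {P : ℂ[X]} (hP : ∀ i, P.coeff i ∈ O) (h1 : O.valuation P.leadingCoeff = 1)
    {t : ℂ} (h : P.eval t = 0) : t ∈ O := by
  by_contra ht
  rw [← O.valuation_le_one_iff, not_le] at ht
  rw [eval_eq_sum_range, Finset.sum_range_succ, add_eq_zero_iff_eq_neg] at h
  have := O.valuation.map_sum_lt (s := Finset.range P.natDegree) (f := fun i => P.coeff i * t ^ i)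
    (g := O.valuation t ^ P.natDegree) (pow_ne_zero _ (zero_lt_one.trans ht).ne') fun i hi =>
      (Iv.mul_le_l (hP i)).trans_lt (by
        rw [map_pow]
        exact pow_lt_pow_right₀ ht (Finset.mem_range.1 hi))
  rw [h, Valuation.map_neg, map_mul, coeff_natDegree, h1, one_mul, map_pow] at this
  exact this.false

/-- zeros of functions which are units at all cusps -/
theorem zero_int {f : ℍ → ℂ} (h : f ∈ RR O) (hu : ∀ γ : SL(2, ℤ), Gq O fun τ => f (γ • τ))
    {τ : ℍ} (h0 : f τ = 0) : jf τ ∈ O := by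
  obtain ⟨N, hN, b⟩ := h.2.1
  have : NeZero N := ⟨hN.ne'⟩
  obtain ⟨w, rfl⟩ := to_BB h b
  obtain ⟨P, h1, h2⟩ := Iv.inv_poly (∏ g : GG N, g • w.1) fun g => by
    rw [Finset.smul_prod']
    exact Fintype.prod_equiv (Equiv.mulLeft g) _ _ fun a => (mul_smul g a _).symm
  obtain ⟨k, m, c, c1, c2⟩ : ∃ k, Gd O k (exW N (∏ g : GG N, g • w.1)) := by
    rw [map_prod]
    refine Finset.prod_induction _ (fun s => ∃ k, Gd O k s) ?_ ⟨_, gd_one⟩ fun g _ => ?_
    · rintro _ _ ⟨k, a⟩ ⟨l, b⟩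
      exact ⟨_, a.mul b⟩
    · obtain ⟨γ, rfl⟩ := pr_inv g
      exact exW_gd (hu γ)
  obtain ⟨s, s1, s2⟩ := ex_j (l := 1) one_pos
  obtain ⟨-, u, u1, u2⟩ := (gd_sb (pos12 (N := N))).2 (gd_of (O := O) s1)
  have e : exW N (jW N) = sb (N * 12) pos12 s := exW_eq (exL_one_sb pos12 s2)
  rw [h1] at m c2
  have c0 : c ≠ 0 := fun e => by simp [e] at c1
  have P0 : P ≠ 0 := fun e => c0 (by rw [← c2.2, e, eval₂_zero]; rfl)
  have := c2.uniq (e ▸ u2.eval (by have := pos12 (N := N); omega) P) c0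
    (mul_ne_zero (leadingCoeff_ne_zero.2 P0) (pow_ne_zero _ fun e => by simp [e] at u1))
  rw [this, map_mul, map_pow, u1, one_pow, mul_one] at c1
  refine root_int (coeff_int (dat O).pole m) c1 ?_
  rw [← h2]
  change Iv.ev N τ _ = 0
  rw [map_prod]
  exact Finset.prod_eq_zero (Finset.mem_univ 1) (by rw [one_smul]; exact h0)

theorem cm_int {l : Fm} {τ : ℍ} (h0 : l ≠ 0) (h : evq l τ = 0) : jf τ ∈ O := by
  have hD := disc_neg h0 h
  obtain ⟨k, hk⟩ : ∃ k, k = |l.2.1| - disc l := ⟨_, rfl⟩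
  have hA := En_pos hD k
  refine zero_int (sub_mem jf_RR (mo_RR hA jf_RR)) (fun γ => ?_)
    (by simp only [Pi.sub_apply, En_fix hD h, sub_self])
  obtain ⟨g, a, d, b, ha, hd, e⟩ := Pbm.hermite _ (pos_mul hA (SL_pos γ))
  have ne : a ≠ d := by
    rintro rfl
    have h1 := congrArg Matrix.det e
    rw [Matrix.det_mul, Matrix.det_mul, γ.det_coe, g.det_coe, Matrix.det_fin_two_of] at h1
    have h2 := En_det l k
    have h3 := le_abs_self l.2.1
    have h4 := abs_nonneg l.2.1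
    obtain ⟨m, hm⟩ : ∃ m, m = 2 * k - l.2.1 := ⟨_, rfl⟩
    rw [← hm] at h2
    have h5 : m < 2 * a := by nlinarith
    nlinarith
  obtain ⟨s, s1, s2⟩ := ex_j (l := 1) one_pos
  have h1 := Exp.exL_aff b ha hd one_pos s2 (tri_coe b ha hd)
  have h2 := ((gd_sb hd).2 (gd_of (O := O) s1)).sub
    ((gd_sb ha).2 ((gd_of s1).rs (ze_ne _ _) (val_ze (Nat.mul_pos one_pos hd) b))) (by omega)
  refine ⟨_, Nat.mul_pos one_pos hd, _, _, h2, ?_⟩
  convert (exL_period hd one_ne_zero s2).sub h1 using 1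
  funext σ
  simp only [Pi.sub_apply]
  rw [jf_smul, ← mo_SL, ← mo_mul hA (SL_pos γ), e, mo_mul (SL_pos g) (tri_pos b ha hd)]
  exact congrArg _ ((congrArg jf (mo_SL g _)).trans (jf_smul g _))

theorem int : INT := fun l τ h0 h => by
  have h1 : jf τ ∈ (integralClosure (Subring.closure (∅ : Set ℂ)) ℂ).toSubring := by
    rw [← iInf_valuationSubring_superset, Subring.mem_iInf]
    exact fun V => cm_int h0 h
  haveI : Algebra.IsIntegral ℤ (Subring.closure (∅ : Set ℂ)) := ⟨fun x => by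
    obtain ⟨x, hx⟩ := x
    obtain ⟨n, rfl⟩ := Subring.mem_bot.1 (Subring.closure_empty (R := ℂ) ▸ hx)
    exact isIntegral_algebraMap (R := ℤ) (x := n)⟩
  exact isIntegral_trans (A := Subring.closure (∅ : Set ℂ)) _ h1

/-! ### quotients of discriminants -/

/-- the discriminant -/
abbrev Dl : ℍ → ℂ := ModularForm.discriminant

theorem Dl_ne (τ : ℍ) : Dl τ ≠ 0 := ModularForm.discriminant_ne_zero τ

/-- `Δ(Λ) / Δ(Λ')` for the sublattice with the matrix `A` -/
def su (A : M2) (τ : ℍ) : ℂ := Dl τ * den A τ ^ 12 / Dl (mo A τ)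

section su
variable {A B : M2}

theorem su_ne (h : 0 < A.det) (τ : ℍ) : su A τ ≠ 0 :=
  div_ne_zero (mul_ne_zero (Dl_ne _) (pow_ne_zero _ (den_ne h τ))) (Dl_ne _)

theorem su_mul (h : 0 < A.det) (h' : 0 < B.det) (τ : ℍ) :
    su (A * B) τ = su A (mo B τ) * su B τ := by
  have := Dl_ne (mo B τ)
  rw [su, su, su, mo_mul h h', den_mul h']
  field_simp

theorem su_fix {τ : ℍ} (h : mo A τ = τ) : su A τ = den A τ ^ 12 := by
  rw [su, h, mul_div_cancel_left₀ _ (Dl_ne τ)]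

theorem su_SL (γ : SL(2, ℤ)) (τ : ℍ) : su γ τ = 1 := by
  have h := congrFun (isMF_disc.slash γ trivial) τ
  rw [ModularForm.SL_slash_apply, ModularGroup.denom_apply, zpow_neg, zpow_ofNat,
    mul_inv_eq_iff_eq_mul₀ (pow_ne_zero _ (Iv.den_ne γ τ))] at h
  rw [su, mo_SL, div_eq_one_iff_eq (Dl_ne _)]
  exact h.symm

theorem su_r (h : 0 < A.det) (γ : SL(2, ℤ)) (τ : ℍ) : su (A * γ) τ = su A (γ • τ) := by
  rw [su_mul h (SL_pos γ), su_SL, mul_one, mo_SL]

theorem su_l (h : 0 < A.det) (γ : SL(2, ℤ)) (τ : ℍ) : su (γ * A) τ = su A τ := by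
  rw [su_mul (SL_pos γ) h, su_SL, one_mul]

theorem gq_D : Gq O Dl ∧ Gq O Dl⁻¹ := by
  obtain ⟨s, a, b⟩ := ex_disc (l := 1) one_pos
  exact ⟨⟨1, one_pos, _, s, gd_of a, b⟩, 1, one_pos, _, _, gd_of a.inv,
    (b.inv one_ne_zero a.ne).2⟩

theorem su_cusp (h : 0 < A.det) (γ : SL(2, ℤ)) : ∃ (g : SL(2, ℤ)) (a d : ℕ) (b : ℤ)
    (u : ℍ → ℂ), A * γ = g * !![(a : ℤ), b; 0, (d : ℤ)] ∧ 0 < d ∧ Gq O u ∧ Gq O u⁻¹ ∧
      ∀ τ, su A (γ • τ) = d ^ 12 * u τ := by
  obtain ⟨g, a, d, b, ha, hd, e⟩ := Pbm.hermite _ (pos_mul h (SL_pos γ))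
  refine ⟨g, a, d, b, _, e, hd, gq_D.1.mul (gq_D.2.tri b ha hd), ?_, fun τ => ?_⟩
  · rw [mul_inv]
    refine gq_D.2.mul ?_
    convert gq_D.1.tri b ha hd using 1
    funext τ
    simp
  · rw [← su_r h, e, su_l (tri_pos b ha hd), su, den]
    simp
    ring

theorem su_RR (h : 0 < A.det) : su A ∈ RR O := by
  refine ⟨?_, ⟨1 * A.det.natAbs, by simpa using h.ne', fun γ m τ => ?_⟩, fun γ => ?_⟩
  · refine MDifferentiable.div (isMF_disc.hol.mul (MDifferentiable.pow ?_ 12))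
      (mo_hol h isMF_disc.hol) fun τ => Dl_ne _
    exact (mdifferentiable_const.mul mdifferentiable_coe).add mdifferentiable_const
  · obtain ⟨δ, -, e⟩ := Pbm.conj A h 1 γ m
    rw [← su_r h, e, su_l h]
  · obtain ⟨g, a, d, b, u, -, -, h1, -, h2⟩ := su_cusp (O := O) h γ
    rw [funext h2]
    exact mul_mem (const_Iq (pow_mem (natCast_mem O d) 12)) h1.mem

end su

end Vale.Agent.P004Z.Fin
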