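import Vale.Agent.P004Z.Fin.Mp

/-! # P004Z, block G6: the two outer components, the type of the Heegner points -/

set_option autoImplicit false
set_option linter.all false

open UpperHalfPlane hiding I
open CongruenceSubgroup
open scoped MatrixGroups ModularForm Manifold Classical Pointwise

noncomputable section

namespace Vale.Agent.P004Z.Fin

open Vale.Agent.P022.H218.L3 Vale.Agent.P022.H231.L3 Vale.Agent.P022.H236.L3
  Vale.Agent.P022.H542.L3 Vale.Agent.P022D.Irr Vale.Agent.P027M.M Vale.Agent.P004M.D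
  Vale.Agent.P022D

variable {V : AbsoluteValue ℂ ℝ} {p N : ℕ} [NeZero N] {k M : ℕ}

theorem g0_le {q : ℕ} (h : q ∣ N) : Gamma0 N ≤ Gamma0 q := fun _ m =>
  Hd.g0_dvd.2 ((Int.natCast_dvd_natCast.2 h).trans (Hd.g0_dvd.1 m))

theorem Ov.dec (h : Ov V p) (d : M ∣ N) (hM : ¬ p ∣ M) (γ : SL(2, ℤ)) :
    ∃ m ∈ Gamma M, ∃ d ∈ DD (vO h.na) N, m * d = γ := by
  haveI := Gamma_normal M
  have := eq_top_of (Gamma M ⊔ DD (vO h.na) N) M (by rintro rfl; simp at hM) le_sup_left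
    (Subgroup.mem_sup_right T_DD) fun l hl e => by
      obtain ⟨γ, a, b⟩ := not_bor (O := vO h.na) (N := N) (by
        have := h.of_ndvd (n := l) fun c => hM (((Nat.prime_dvd_prime_iff_eq h.prime hl).1
          (Int.natCast_dvd_natCast.1 c)) ▸ e)
        rw [mem_vO, map_inv₀, ← Int.cast_natCast, this, inv_one]) hl (e.trans d)
      exact ⟨γ, Subgroup.mem_sup_right a, b⟩
  have m : γ ∈ ((Gamma M ⊔ DD (vO h.na) N : Subgroup SL(2, ℤ)) : Set SL(2, ℤ)) :=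
    this ▸ Subgroup.mem_top γ
  rwa [Subgroup.normal_mul] at m

theorem pw_alt (hp : p.Prime) {a d : ℕ} (e : a * d = p ^ k) : a = 1 ∨ p ∣ a := by
  obtain ⟨i, -, rfl⟩ := (Nat.dvd_prime_pow hp).1 (Dvd.intro _ e)
  rcases i with _ | i
  · exact Or.inl rfl
  · exact Or.inr (dvd_pow_self _ i.succ_ne_zero)

theorem sm_of {O : ValuationSubring ℂ} {d : ℕ} (h : p ∣ d) {u s : ℍ → ℂ} (hu : Gq O u)
    (e : ∀ τ, s τ = d ^ 12 * u τ) : ∃ u ∈ Iq O, ∀ τ, s τ = p * u τ := by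
  obtain ⟨c, rfl⟩ := h
  refine ⟨_, Iq_sm (mul_mem (pow_mem (natCast_mem O p) 11) (pow_mem (natCast_mem O c) 12)) hu.mem
    fun _ => rfl, fun τ => ?_⟩
  rw [e]
  push_cast
  ring

theorem su_alt {O : ValuationSubring ℂ} (hp : p.Prime) (γ : SL(2, ℤ)) :
    (γ ∈ Gamma0 (p ^ k) → Gq O fun τ => su (dg (p ^ k)) (γ • τ)) ∧
    (γ ∉ Gamma0 (p ^ k) → ∃ u ∈ Iq O, ∀ τ, su (dg (p ^ k)) (γ • τ) = p * u τ) := by
  have q0 := pow_pos hp.pos k
  obtain ⟨a, d, u, e, h1, h2, h3, -, h4, -⟩ := dg_cusp (O := O) q0 γ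
  refine ⟨fun m => ?_, fun m => ?_⟩
  · have := Nat.le_of_dvd (Nat.pos_of_mul_pos_right (e ▸ q0))
      (Int.natCast_dvd_natCast.1 (h2 _ dvd_rfl (Hd.g0_dvd.1 m)))
    obtain rfl : d = 1 := by
      have := Nat.pos_of_mul_pos_left (e ▸ q0)
      nlinarith
    simpa only [h4, Nat.cast_one, one_pow, one_mul] using h3
  · rcases pw_alt hp ((mul_comm _ _).trans e) with rfl | c
    · exact absurd (Hd.g0_dvd.2 (by rwa [← e, mul_one])) m
    · exact sm_of c h3 h4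

theorem Ov.DD_le (h : Ov V p) (d : p ^ k ∣ N) : DD (vO h.na) N ≤ Gamma0 (p ^ k) := fun γ m => by
  have q0 := pow_pos h.prime.pos k
  obtain ⟨w, hw⟩ := to_BB (N := N) (su_RR (O := vO h.na) (dg_pos q0))
    ((nv_su q0).mono (G_le.trans (g0_le d)))
  by_contra c
  obtain ⟨u, h1, h2⟩ := (su_alt (O := vO h.na) h.prime γ).2 c
  obtain ⟨t, h3, h4⟩ := exW_sm (w := w.1) (by exact_mod_cast h.prime.ne_zero) h1 (hw ▸ h2)
  have := mem_stab.1 (Subgroup.mem_comap.1 m) _ (rho_zero w _ (vO_lt.2 h.lt) h3 h4)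
  rw [← mul_smul, ← map_mul, mul_inv_cancel, ← inv_one] at this
  obtain ⟨l, hl⟩ := exW_gd (f := w.1) (hw ▸ (su_alt (O := vO h.na) h.prime 1).1 (one_mem _))
  exact hl.red_ne this

theorem cop_pw (hp : p.Prime) {x : ℤ} (h : ¬ (p : ℤ) ∣ x) : IsCoprime ((p ^ k : ℕ) : ℤ) x := by
  rw [Nat.cast_pow]
  exact ((Nat.prime_iff_prime_int.1 hp).irreducible.coprime_iff_not_dvd.2 h).pow_left

theorem Ov.cpF (h : Ov V p) (e : N = p ^ k * M) (hM : ¬ p ∣ M) : Cp h N (su (dg (p ^ k))) 1 := by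
  have q0 := pow_pos h.prime.pos k
  have d : p ^ k ∣ N := Dvd.intro _ e.symm
  refine ⟨su_RR (dg_pos q0), (nv_su q0).mono (g0_le d), (su_alt h.prime 1).1 (one_mem _),
    fun γ => ?_⟩
  by_cases c : γ ∈ Gamma0 (p ^ k)
  · obtain ⟨m, h1, x, h2, rfl⟩ := h.dec (Dvd.intro_left _ e.symm) hM γ
    refine Or.inl ⟨m, Hd.g0_dvd.2 ?_, x, h2, by rw [mul_one]⟩
    rw [e, Nat.cast_mul]
    exact (cop_pw h.prime fun c => hM (Int.natCast_dvd_natCast.1 c)).mul_dvd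
      (Hd.g0_dvd.1 ((Subgroup.mul_mem_cancel_right _ (h.DD_le d h2)).1 c))
      ((ZMod.intCast_zmod_eq_zero_iff_dvd _ _).1 (Gamma_mem.1 h1).2.2.1)
  · exact Or.inr ((su_alt h.prime γ).2 c)

theorem Ov.cpV (h : Ov V p) (e : N = p ^ k * M) (hM : ¬ p ∣ M) (hk : k ≠ 0) :
    Cp h N (sv (p ^ k)) ModularGroup.S := by
  have q0 := pow_pos h.prime.pos k
  have d : p ^ k ∣ N := Dvd.intro _ e.symm
  have d1 : (p : ℤ) ∣ (p ^ k : ℕ) := Int.natCast_dvd_natCast.2 (dvd_pow_self _ hk)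
  refine ⟨sv_RR q0, fun γ m τ => by rw [sv, sv, nv_su q0 γ (g0_le d m)], ?_, fun γ => ?_⟩
  · obtain ⟨a, d, u, -, h1, -, -, h3, -, h4⟩ := dg_cusp (O := vO h.na) q0 ModularGroup.S
    obtain rfl : a = 1 := Nat.dvd_one.1 (Int.natCast_dvd_natCast.1 h1)
    simpa only [h4, Nat.cast_one, one_pow, one_mul] using h3
  by_cases c : (p : ℤ) ∣ γ 1 0
  · obtain ⟨a, d, u, -, -, h2, -, h3, -, h4⟩ := dg_cusp (O := vO h.na) q0 γ
    exact Or.inr (sm_of (Int.natCast_dvd_natCast.1 (h2 _ d1 c)) h3 h4)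
  obtain ⟨m, h1, x, h2, e1⟩ := h.dec (Dvd.intro_left _ e.symm) hM (ModularGroup.S⁻¹ * γ)
  obtain rfl : γ = ModularGroup.S * (m * x) := by rw [e1, mul_inv_cancel_left]
  have c1 : IsCoprime (N : ℤ) (m 0 0) := by
    rw [e, Nat.cast_mul]
    refine (cop_pw h.prime fun z => c ?_).mul_left ?_
    · have := d1.trans (Hd.g0_dvd.1 (h.DD_le d h2))
      rw [mul_e, mul_e, mul_e]
      simpa [ModularGroup.S] using dvd_add (z.mul_right (x 0 0)) (this.mul_left (m 0 1))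
    · obtain ⟨t, ht⟩ := (ZMod.intCast_eq_intCast_iff_dvd_sub (m 0 0) 1 M).1
        (by simpa using (Gamma_mem.1 h1).1)
      exact ⟨t, 1, by linear_combination -ht⟩
  obtain ⟨u, v, huv⟩ := c1
  refine Or.inl ⟨ModularGroup.S * (m * ModularGroup.T ^ (-v * m 0 1)) * ModularGroup.S⁻¹,
    Hd.g0_dvd.2 ⟨-u * m 0 1, ?_⟩, (ModularGroup.T ^ (-v * m 0 1))⁻¹ * x,
    mul_mem (inv_mem (zpow_mem T_DD _)) h2, by group⟩
  obtain ⟨t1, t2, t3, t4⟩ := T_e (-v * m 0 1)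
  obtain ⟨i1, -, i3, -⟩ := inv_e ModularGroup.S
  simp only [mul_e, t1, t2, t3, t4, i1, i3]
  simp [ModularGroup.S]
  linear_combination m 0 1 * huv

theorem root_im {l l' : Fm} {z z' : ℍ} (e : evq l z = 0) (e' : evq l' z' = 0) (a : 0 < l.1)
    (a' : 0 < l'.1) (d : disc l = disc l') :
    2 * l.1 * (z : ℂ) + l.2.1 = 2 * l'.1 * (z' : ℂ) + l'.2.1 := by
  refine (sq_eq_sq_iff_eq_or_eq_neg.1 (by rw [evq_sq e, evq_sq e', d])).resolve_right fun h => ?_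
  have h1 : (2 * l.1 * z.im : ℝ) = -(2 * l'.1 * z'.im) := by simpa using congrArg Complex.im h
  have : (0 : ℝ) < l.1 * z.im := mul_pos (by exact_mod_cast a) z.im_pos
  have : (0 : ℝ) < l'.1 * z'.im := mul_pos (by exact_mod_cast a') z'.im_pos
  linarith

/-- **the Heegner points lie on one component** -/
theorem Ov.mp (h : Ov V p) {δ δ' : ℕ} {β : ℤ} (H : Dat N δ δ' β) {s : Finset ℍ}
    (hs : ∀ b ∈ s, Bd N δ δ' β b ≠ 0) : (∀ b ∈ s, V (jf b) ≤ 1) ∧ Mp V N s := by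
  have hp := h.prime
  have pp := Nat.prime_iff_prime_int.1 hp
  choose! l h1 h2 h3 h4 using fun b hb => Hd.Zp_ne (hs b hb)
  have d := fun b hb => Hd.root_neg (h2 b hb) (h3 b hb).ne'
  have j := fun b hb => h.cm (d b hb) (h2 b hb)
  refine ⟨j, ?_⟩
  obtain ⟨k, M, hM, e⟩ := Nat.exists_eq_pow_mul_and_not_dvd (NeZero.ne N) p hp.ne_one
  have q0 := pow_pos hp.pos k
  by_cases hk : k = 0
  · refine (h.cpF e hM).mp j fun b _ => ?_
    subst hk
    exact (congrArg V (su_sc one_pos b)).trans (by simp)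
  have pN : (p : ℤ) ∣ N := Int.natCast_dvd_natCast.2 (e ▸ (dvd_pow_self _ hk).mul_right _)
  have a1 := fun b hb => (Hd.ph_ne (h4 b hb)).1
  have a2 := fun b hb => (ZMod.intCast_eq_intCast_iff_dvd_sub _ _ _).1 (Hd.ph_ne (h4 b hb)).2.1
  have a3 : ∀ b ∈ s, ((p ^ k : ℕ) : ℤ) ∣ (l b).1 := fun b hb =>
    (Int.natCast_dvd_natCast.2 (Dvd.intro _ e.symm)).trans (a1 b hb)
  have u : ∀ b ∈ s, V (l b).2.1 = 1 := fun b hb => h.of_ndvd fun c => by
    have c1 := (pN.trans (Int.natCast_dvd_natCast.2 (dvd_mul_left N 2))).trans (a2 b hb)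
    rcases pp.dvd_or_dvd ((dvd_sub_left c).1 c1) with c2 | c2
    · have c3 := (dvd_add_right (dvd_pow c2 two_ne_zero)).1 ((pN.mul_left 16).trans H.rt)
      by_cases p2 : p = 2
      · have := H.m8
        subst p2
        omega
      · have := H.spl p hp p2 ((Int.natCast_dvd_natCast.1 pN).mul_right _)
        rw [Hd.J_dvd hp.one_lt c3.neg_right] at this
        exact zero_ne_one this
    · exact hp.one_lt.ne' (Nat.eq_one_of_dvd_coprimes H.ok.cop (Int.natCast_dvd_natCast.1 pN)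
        (Int.natCast_dvd_natCast.1 c2))
  by_cases c : ∀ b ∈ s, V ((l b).1 * b) < 1
  · refine (h.cpF e hM).mp j fun b hb => h.typF (d b hb) (h2 b hb) q0 (a3 b hb) ?_
    rw [h.add_eq (u b hb ▸ c b hb), u b hb]
  push Not at c
  obtain ⟨b₀, hb₀, c⟩ := c
  refine (h.cpV e hM hk).mp j fun b hb => h.typV (d b hb) (h2 b hb) q0 (a3 b hb) ?_
  obtain ⟨t, ht⟩ := dvd_sub (a2 b hb) (a2 b₀ hb₀)
  have c1 : 1 ≤ V ((l b).1 * b) := by
    have e1 := root_im (h2 b hb) (h2 b₀ hb₀) (h3 b hb) (h3 b₀ hb₀) ((h1 b hb).trans (h1 b₀ hb₀).symm)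
    have e2 := congrArg (Int.cast (R := ℂ)) ht
    push_cast at e2
    rwa [show ((l b).1 * b : ℂ) = (N * t : ℤ) + (l b₀).1 * b₀ by
      push_cast; linear_combination e1 / 2 + e2 / 2,
      h.add_eq ((h.of_dvd (pN.mul_right t)).trans_le c)]
  have c2 : V ((l b).1 * b + (l b).2.1) < 1 := by
    have := h.of_dvd ((pN.trans (a1 b hb)).mul_right (l b).2.2)
    have e1 := h2 b hb
    rw [evq] at e1
    rw [← V.map_neg, show -(((l b).1 * (l b).2.2 : ℤ) : ℂ) =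
      (l b).1 * b * ((l b).1 * b + (l b).2.1) by push_cast; linear_combination -(l b).1 * e1,
      map_mul] at this
    exact (le_mul_of_one_le_left (V.nonneg _) c1).trans_lt this
  rw [← u b hb, ← V.map_neg (l b).2.1] at c2
  rw [← u b hb, ← V.map_neg (l b).2.1, ← h.add_eq c2, add_neg_cancel_right]

end Vale.Agent.P004Z.Fin
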