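import Vale.Agent.P004Z.Fin.Typ

/-! # P004Z, block G6: singular moduli of different fields at a split prime -/

set_option autoImplicit false
set_option linter.all false

open UpperHalfPlane hiding I
open Polynomial CongruenceSubgroup
open scoped MatrixGroups ModularForm Manifold Classical NumberTheorySymbols

noncomputable section

namespace Vale.Agent.P004Z.Fin

open Vale.Agent.P022.H218.L3 Vale.Agent.P022.H231.L3 Vale.Agent.P022.H236.L3
  Vale.Agent.P022.H542.L3 Vale.Agent.P022D.Irr Vale.Agent.P027M.M Vale.Agent.P004M.D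
  Vale.Agent.P022D ModularForm

/-! ### `j` determines the lattice -/

theorem ex_scale {a b a' b' r : ℂ} (r0 : r ≠ 0) (ha : a ^ 3 = r * a' ^ 3) (hb : b ^ 2 = r * b' ^ 2)
    (n : a' ^ 3 - b' ^ 2 ≠ 0) : ∃ c : ℂ, c ≠ 0 ∧ a = c ^ 4 * a' ∧ b = c ^ 6 * b' := by
  by_cases a0 : a' = 0
  · have b0 : b' ≠ 0 := fun e => n (by simp [a0, e])
    obtain ⟨c, hc⟩ := IsAlgClosed.exists_pow_nat_eq (b / b') (n := 6) (by norm_num)
    refine ⟨c, ?_, by simpa [a0] using ha, by rw [hc, div_mul_cancel₀ _ b0]⟩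
    rintro rfl
    have : b = 0 := by simpa [b0] using hc.symm
    simp [this, r0, b0] at hb
  have a1 : a ≠ 0 := fun e => by simp [e, r0, a0] at ha
  by_cases b0 : b' = 0
  · obtain ⟨c, hc⟩ := IsAlgClosed.exists_pow_nat_eq (a / a') (n := 4) (by norm_num)
    refine ⟨c, ?_, by rw [hc, div_mul_cancel₀ _ a0], by simpa [b0] using hb⟩
    rintro rfl
    simpa [a0, a1] using hc.symm
  have b1 : b ≠ 0 := fun e => by simp [e, r0, b0] at hb
  obtain ⟨c, hc⟩ := IsAlgClosed.exists_pow_nat_eq (b * a' / (b' * a)) (n := 2) (by norm_num)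
  refine ⟨c, ?_, ?_, ?_⟩
  · rintro rfl
    simpa [a0, a1, b0, b1] using hc.symm
  · rw [show c ^ 4 = (c ^ 2) ^ 2 by ring, hc]
    field_simp
    linear_combination b' ^ 2 * ha - a' ^ 3 * hb
  · rw [show c ^ 6 = (c ^ 2) ^ 3 by ring, hc]
    field_simp
    linear_combination b' ^ 2 * ha - a' ^ 3 * hb

theorem j_lat {τ σ : ℍ} (h : jf τ = jf σ) : ∃ m n m' n' : ℤ,
    (σ : ℂ) * (m' * τ + n') = m * τ + n ∧ (m' * τ + n' : ℂ) ≠ 0 := by
  have h1 := E4_pow τ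
  have h2 := E4_pow σ
  have h3 := discriminant_eq_E₄_cube_sub_E₆_sq τ
  have h4 := discriminant_eq_E₄_cube_sub_E₆_sq σ
  have n := Dl_ne σ
  obtain ⟨c, c0, e4, e6⟩ := ex_scale (a := E₄ τ) (b := E₆ τ) (a' := E₄ σ) (b' := E₆ σ)
    (div_ne_zero (Dl_ne τ) n) (by rw [h1, h2, h]; field_simp) (by
      rw [div_mul_eq_mul_div, eq_div_iff n]
      rw [h] at h1
      linear_combination Dl σ * h1 - Dl τ * h2 + 1728 * Dl σ * h3 - 1728 * Dl τ * h4)
    fun e => n (by rw [Dl, h4, e, zero_div])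
  have k : ∀ z ∈ (P014G.mkPP 1 one_ne_zero σ).lattice, ∃ m n : ℤ, m * (c * τ) + n * c = z :=
    fun z hz => PeriodPair.mem_lattice.1 (P014G.lattice_le (L' := P014G.mkPP c c0 τ)
      (by rw [P014G.g2_mk, P014G.g2_mk, e4]; field_simp)
      (by rw [P014G.g3_mk, P014G.g3_mk, e6]; field_simp) hz)
  obtain ⟨m, n, e⟩ := k _ (PeriodPair.ω₁_mem_lattice _)
  obtain ⟨m', n', e'⟩ := k _ (PeriodPair.ω₂_mem_lattice _)
  change _ = 1 * (σ : ℂ) at e
  change _ = (1 : ℂ) at e'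
  refine ⟨m, n, m', n', ?_, fun z => ?_⟩
  · linear_combination (m * τ + n) * e' - (m' * τ + n') * e
  · exact one_ne_zero (by linear_combination c * z - e')

theorem pull {l : Fm} {τ σ : ℍ} {m n m' n' : ℤ} (e : evq l σ = 0)
    (h : (σ : ℂ) * (m' * τ + n') = m * τ + n) (h0 : (m' * τ + n' : ℂ) ≠ 0) :
    ∃ (l' : Fm) (k : ℤ), k ≠ 0 ∧ evq l' τ = 0 ∧ disc l' = disc l * k ^ 2 := by
  refine ⟨(Hd.val l m m', 2 * l.1 * m * n + l.2.1 * (m * n' + n * m') + 2 * l.2.2 * m' * n',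
    Hd.val l n n'), m * n' - n * m', fun z => ?_, ?_, by simp only [disc, Hd.val]; ring⟩
  · have z' : (m * n' - n * m' : ℂ) = 0 := by exact_mod_cast z
    have h1 : (m' * σ - m : ℂ) = 0 := mul_right_cancel₀ h0 (by linear_combination m' * h - z')
    have h2 : (n' * σ - n : ℂ) = 0 := mul_right_cancel₀ h0 (by linear_combination n' * h + τ * z')
    have h3 : m' = 0 := by simpa [σ.im_ne_zero] using congrArg Complex.im h1
    have h4 : n' = 0 := by simpa [σ.im_ne_zero] using congrArg Complex.im h2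
    simp [h3, h4] at h0
  · simp only [evq, Hd.val] at e ⊢
    push_cast
    linear_combination (m' * τ + n') ^ 2 * e -
      (l.1 * (σ * (m' * τ + n') + (m * τ + n)) + l.2.1 * (m' * τ + n')) * h

theorem sq_cancel {x k : ℤ} (k0 : k ≠ 0) (h : IsSquare (x * k ^ 2)) : IsSquare x := by
  obtain ⟨y, hy⟩ := h
  obtain ⟨z, rfl⟩ : k ∣ y :=
    (Int.pow_dvd_pow_iff two_ne_zero).1 ⟨x, by rw [sq y, ← hy, mul_comm]⟩
  exact ⟨z, mul_right_cancel₀ (pow_ne_zero 2 k0) (by rw [hy]; ring)⟩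

theorem ne_of_disc {l : Fm} (d : disc l < 0) : l ≠ 0 := fun z => by simp [z, disc] at d

theorem sq_of_j {l l' : Fm} {τ σ : ℍ} (d : disc l < 0) (e : evq l τ = 0) (e' : evq l' σ = 0)
    (h : jf τ = jf σ) : IsSquare (disc l * disc l') := by
  obtain ⟨m, n, m', n', h1, h2⟩ := j_lat h
  obtain ⟨l₁, k, k0, h3, h4⟩ := pull e' h1 h2
  have := Hd.root_sq e h3
  refine sq_cancel (mul_ne_zero k0 (fst_ne (ne_of_disc d) e)) ⟨disc l * l₁.1, ?_⟩
  linear_combination disc l * this - disc l * l.1 ^ 2 * h4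

theorem fin_j {D : ℤ} (hD : D < 0) : (jf '' {τ | ∃ l, disc l = D ∧ evq l τ = 0}).Finite := by
  obtain ⟨R, h1, h2⟩ := Hd.red D
  refine (R.finite_toSet.biUnion fun l hl => (Set.Subsingleton.finite
    (s := {τ : ℍ | evq l τ = 0}) fun z a w b => Hd.root_one a b (h1 l hl).2.ne').image jf).subset ?_
  rintro _ ⟨τ, ⟨l, a, b⟩, rfl⟩
  obtain ⟨l, a, b, c⟩ : ∃ l, disc l = D ∧ evq l τ = 0 ∧ 0 < l.1 := by
    rcases (fst_ne (ne_of_disc (a.trans_lt hD)) b).lt_or_gt with c | c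
    · exact ⟨-l, (Hd.disc_neg l).trans a, by rw [Hd.evq_neg, b, neg_zero], neg_pos.2 c⟩
    · exact ⟨l, a, b, c⟩
  obtain ⟨γ, hγ⟩ := h2 l a hD c
  exact Set.mem_biUnion hγ ⟨γ⁻¹ • τ, (Hd.root_fa l γ _).2 (by rwa [smul_inv_smul]), jf_smul _ _⟩

/-! ### the Kronecker congruence -/

theorem frob {p : ℕ} (hp : p.Prime) (A : PowerSeries ℤ) (n : ℕ) :
    (p : ℤ) ∣ PowerSeries.coeff n (PowerSeries.expand p hp.ne_zero A - A ^ p) := by
  haveI := Fact.mk hp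
  have h : PowerSeries.map (frobenius (ZMod p) p) (PowerSeries.expand p hp.ne_zero
      (A.map (Int.castRingHom (ZMod p)))) = _ := MvPowerSeries.map_frobenius_expand p hp.ne_zero
  rw [ZMod.frobenius_zmod, PowerSeries.map_id, id] at h
  rw [← ZMod.intCast_zmod_eq_zero_iff_dvd, ← eq_intCast (Int.castRingHom (ZMod p)),
    ← PowerSeries.coeff_map, map_sub, map_pow, PowerSeries.map_expand, h, sub_self, map_zero]

theorem kro_q {O : ValuationSubring ℂ} {p : ℕ} (hp : p.Prime) :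
    (fun τ => (p : ℂ)⁻¹ * (jf (mo (dg p) τ) - jf τ ^ p)) ∈ Iq O := by
  obtain ⟨s, s1, s2⟩ := ex_j (l := 1) one_pos
  have k : ∀ n, ∃ a : ℤ, (a : ℂ) = s.coeff n := fun n => by
    refine Algebra.mem_bot.1 (Algebra.adjoin_le (S := ⊥) ?_ (s1.int n))
    rintro _ (rfl | rfl)
    · exact ⟨1, by simp [ze]⟩
    · exact ⟨1, by simp⟩
  choose a ha using k
  have e : s = ls (-1) (toCi (PowerSeries.mk fun n => a (-1 + n))) :=
    ls_ext (fun n => by simp [ha]) fun n => s1.lt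
  refine ⟨1, one_pos, _, mem_Int.2 fun n => ?_,
    ((s2.mulTau hp.pos (dg_coe hp.pos)).sub (s2.pow p)).smul (p : ℂ)⁻¹⟩
  generalize (PowerSeries.mk fun n : ℕ => a (-1 + n)) = A at e
  have e2 : ∀ k : ℕ, ls (-1) (toCi A) ^ k = ls (k * -1) (toCi A ^ k) := fun k => by
    induction k with
    | zero => simpa using ls_zero_one.symm
    | succ k ih => rw [pow_succ, ih, ls_mul, pow_succ, Nat.cast_succ, add_mul, one_mul]
  rw [e, e2, sb_ls hp.ne_zero, HahnSeries.C_mul_eq_smul, HahnSeries.coeff_smul,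
    HahnSeries.coeff_sub]
  rcases lt_or_ge n (p * -1) with h | h
  · simp only [coeff_ls_of_lt _ _ h, sub_self, smul_zero, zero_mem]
  · obtain ⟨m, rfl⟩ : ∃ m : ℕ, n = p * -1 + m := ⟨(n - p * -1).toNat, by omega⟩
    obtain ⟨b, hb⟩ := frob hp A m
    rw [coeff_ls, coeff_ls, ← map_pow, ← PowerSeries.map_expand, ← map_sub, ← map_sub,
      PowerSeries.coeff_map, hb, map_mul, map_natCast, smul_eq_mul,
      inv_mul_cancel_left₀ (by exact_mod_cast hp.ne_zero)]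
    exact intCast_mem O b

theorem kro_RR {O : ValuationSubring ℂ} {p : ℕ} (hp : p.Prime) :
    (fun τ => (p : ℂ)⁻¹ * ((jf (mo (dg p) τ) - jf τ ^ p) * su (dg p) τ)) ∈ RR O := by
  have m := sub_mem (mo_RR (dg_pos hp.pos) (jf_RR (O := O))) (pow_mem jf_RR p)
  have m' := su_RR (O := O) (dg_pos hp.pos)
  refine RR_div (mul_mem m m') _ fun g => ?_
  by_cases hg : g ∈ Gamma0 p
  · refine Iq_sm (one_mem _) (mul_mem (kro_q hp) (m'.2.2 g)) fun σ => ?_
    have := nv_j hp.pos g hg σ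
    simp only [Pi.mul_apply, Pi.sub_apply, Pi.pow_apply, jf_smul] at this ⊢
    rw [this, one_mul, mul_assoc]
  · obtain ⟨u, h1, h2⟩ := cusp_p (O := O) hp hg
    refine Iq_sm (pow_mem (natCast_mem O p) 11) (mul_mem (m.2.2 g) h1) fun σ => ?_
    have : (p : ℂ) ≠ 0 := by exact_mod_cast hp.ne_zero
    simp only [Pi.mul_apply, h2]
    field_simp

variable {V : AbsoluteValue ℂ ℝ} {p : ℕ}

theorem vO_le {h : IsNonarchimedean V} {x y : ℂ} (e : (vO h).valuation x ≤ (vO h).valuation y) :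
    V x ≤ V y := by
  by_cases y0 : y = 0
  · simp_all
  · rwa [← div_le_one₀ (by simpa [zero_lt_iff]), ← map_div₀, ValuationSubring.valuation_le_one_iff,
      mem_vO, map_div₀, div_le_one (V.pos y0)] at e

theorem Ov.lip (h : Ov V p) {f : ℍ → ℂ} (hf : f ∈ RR (vO h.na)) (hi : Nv (Gamma0 p) f) {τ τ' : ℍ}
    (hj : V (jf τ) ≤ 1) (hj' : V (jf τ') ≤ 1)
    (h1 : ∀ γ ∉ Gamma0 p, V (f (γ • τ)) ≤ V (jf τ - jf τ'))
    (h2 : ∀ γ ∉ Gamma0 p, V (f (γ • τ')) ≤ V (jf τ - jf τ')) :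
    V (f τ - f τ') ≤ V (jf τ - jf τ') := by
  haveI : NeZero p := ⟨h.prime.ne_zero⟩
  let _ : Fintype (SL(2, ℤ) ⧸ Gamma0 p) := Fintype.ofFinite _
  have k : ∀ a b : SL(2, ℤ), (a : SL(2, ℤ) ⧸ Gamma0 p) = b → ∀ σ, f (a⁻¹ • σ) = f (b⁻¹ • σ) :=
    fun a b e σ => by rw [← hi _ (QuotientGroup.eq.1 e) (b⁻¹ • σ), mul_smul, smul_inv_smul]
  have m := lip_RR (sum_mem fun (q : SL(2, ℤ) ⧸ Gamma0 p) (_ : q ∈ Finset.univ) =>
    SL_RR q.out⁻¹ hf) (fun γ _ σ => by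
      simp only [Finset.sum_apply]
      refine Fintype.sum_equiv (MulAction.toPerm γ⁻¹) _ _ fun q => ?_
      rw [MulAction.toPerm_apply, k _ (γ⁻¹ * q.out) ((QuotientGroup.out_eq' _).trans
        (MulAction.Quotient.mk_smul_out _ γ⁻¹ q).symm), mul_inv_rev, inv_inv, mul_smul]) hj hj'
  have e : ∀ σ : ℍ, (∀ γ ∉ Gamma0 p, V (f (γ • σ)) ≤ V (jf τ - jf τ')) →
      V ((∑ q : SL(2, ℤ) ⧸ Gamma0 p, fun σ => f (q.out⁻¹ • σ)) σ - f σ) ≤ V (jf τ - jf τ') :=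
    fun σ hσ => by
    rw [Finset.sum_apply, ← Finset.add_sum_erase _ _ 
      (Finset.mem_univ (QuotientGroup.mk 1)), k _ 1 (QuotientGroup.out_eq' _), inv_one, one_smul, add_sub_cancel_left]
    refine Finset.sum_induction _ (fun x => V x ≤ _) (fun _ _ => h.add_le) (by simp) fun q hq =>
      hσ _ fun e => Finset.ne_of_mem_erase hq ?_
    rw [← QuotientGroup.out_eq' q, QuotientGroup.eq, mul_one]
    exact e
  have := h.add_le (h.sub_le (vO_le m) (e τ h1)) (e τ' h2)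
  rwa [show ∀ a b c d : ℂ, a - b - (a - c) + (b - d) = c - d from fun _ _ _ _ => by ring] at this

/-- **the canonical isogeny is a contraction** -/
theorem Ov.con (h : Ov V p) {τ τ' : ℍ} (hj : V (jf τ) ≤ 1) (hj' : V (jf τ') ≤ 1)
    (hF : V (su (dg p) τ) = 1) (hF' : V (su (dg p) τ') = 1) (h0 : jf τ ≠ jf τ')
    (h1 : V (jf τ - jf τ') < 1) :
    V (jf (mo (dg p) τ) - jf (mo (dg p) τ')) < V (jf τ - jf τ') := by
  have hp := h.prime
  have e0 := V.pos (sub_ne_zero.2 h0)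
  have p0 : (p : ℂ) ≠ 0 := by exact_mod_cast hp.ne_zero
  obtain ⟨n, hn⟩ := exists_pow_lt_of_lt_one e0 (pow_lt_one₀ (V.nonneg _) h.lt (n := 12) (by norm_num))
  have m := su_RR (O := vO h.na) (dg_pos hp.pos)
  have hU := @Ov.uniq _ _ h
  have hN := nv_su hp.pos
  have hK := kro_RR (O := vO h.na) hp
  generalize su (dg p) = s at *
  have key : ∀ f ∈ RR (vO h.na), Nv (Gamma0 p) f →
      V (f τ * s τ ^ n - f τ' * s τ' ^ n) ≤ V (jf τ - jf τ') := fun f hf hi => by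
    have b : ∀ σ, V (jf σ) ≤ 1 → V (s σ) = 1 → ∀ γ ∉ Gamma0 p,
        V ((f * s ^ n) (γ • σ)) ≤ V (jf τ - jf τ') := fun σ a b γ c => by
      rw [Pi.mul_apply, Pi.pow_apply, map_mul, map_pow]
      exact (mul_le_of_le_one_left (by positivity) (h.val (SL_RR γ hf) a)).trans
        ((pow_le_pow_left₀ (V.nonneg _) (hU a b c) n).trans hn.le)
    exact h.lip (mul_mem hf (pow_mem m n)) (fun γ c σ => by
      rw [Pi.mul_apply, Pi.pow_apply, hi γ c, hN γ c]; rfl) hj hj' (b τ hj hF) (b τ' hj' hF')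
  have k1 := key _ m hN
  have k2 := key _ hK fun γ c σ => by
    have := nv_j hp.pos γ c σ
    simp only at this ⊢
    rw [this, jf_smul, hN γ c]
  have k3 := h.val hK hj'
  simp only [← mul_assoc] at k2 k3
  generalize s τ = u at *
  generalize s τ' = u' at *
  obtain ⟨a, ha⟩ : ∃ a, a = (p : ℂ)⁻¹ * (jf (mo (dg p) τ) - jf τ ^ p) := ⟨_, rfl⟩
  obtain ⟨a', ha'⟩ : ∃ a, a = (p : ℂ)⁻¹ * (jf (mo (dg p) τ') - jf τ' ^ p) := ⟨_, rfl⟩
  rw [← ha, ← ha'] at k2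
  rw [← ha', map_mul, hF', mul_one] at k3
  have k4 : V (a - a') ≤ V (jf τ - jf τ') := by
    have := h.sub_le k2 (y := a' * (u * u ^ n - u' * u' ^ n)) (by
      rw [map_mul]
      exact (mul_le_of_le_one_left (V.nonneg _) k3).trans k1)
    rwa [show a * u * u ^ n - a' * u' * u' ^ n - a' * (u * u ^ n - u' * u' ^ n) =
      (a - a') * u * u ^ n by ring, map_mul, map_mul, map_pow, hF, one_pow, mul_one, mul_one] at this
  obtain ⟨r, hr⟩ := exists_add_pow_prime_eq hp (⟨jf τ - jf τ', h1.le⟩ : vO h.na) ⟨jf τ', hj'⟩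
  have hr' : (jf τ - jf τ' + jf τ') ^ p = (jf τ - jf τ') ^ p + jf τ' ^ p +
    p * (jf τ - jf τ') * jf τ' * r := congrArg Subtype.val hr
  rw [show jf (mo (dg p) τ) - jf (mo (dg p) τ') = p * (a - a') + ((jf τ - jf τ') ^ p +
    p * (jf τ - jf τ') * jf τ' * r) by
      rw [ha, ha', mul_sub, mul_inv_cancel_left₀ p0, mul_inv_cancel_left₀ p0]
      rw [sub_add_cancel] at hr'
      linear_combination hr']
  have l1 : V p * V (jf τ - jf τ') < V (jf τ - jf τ') := mul_lt_of_lt_one_left e0 h.lt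
  refine h.add_lt ?_ (h.add_lt ?_ ?_)
  · rw [map_mul]
    exact (mul_le_mul_of_nonneg_left k4 (V.nonneg _)).trans_lt l1
  · rw [map_pow]
    exact pow_lt_self_of_lt_one₀ e0 h1 hp.one_lt
  · rw [map_mul, map_mul, map_mul]
    exact ((mul_le_of_le_one_right (by positivity) r.2).trans
      (mul_le_of_le_one_right (by positivity) hj')).trans_lt l1

theorem Ov.tr (h : Ov V p) {f : ℍ → ℂ} (hf : f ∈ RR (vO h.na)) {τ τ' : ℍ} (hj : V (jf τ) ≤ 1)
    (hj' : V (jf τ') ≤ 1) (e : V (jf τ - jf τ') < 1) :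
    ∃ γ : SL(2, ℤ), V (f τ - f (γ • τ')) < 1 :=
  (tr_RR hf hj hj' (vO_lt.2 e)).imp fun _ => vO_lt.1

theorem root_inv {l : Fm} {τ : ℍ} (e : evq l τ = 0) (γ : SL(2, ℤ)) :
    evq (fa l γ⁻¹) (γ • τ : ℍ) = 0 := (Hd.root_fa l _ _).2 (by rwa [inv_smul_smul])

theorem root_dg (hp : 0 < p) {l : Fm} {τ : ℍ} (e : evq l τ = 0) {a : ℤ} (ha : l.1 = p * a) :
    evq (a, l.2.1, p * l.2.2) (mo (dg p) τ) = 0 ∧ disc (a, l.2.1, p * l.2.2) = disc l := by
  simp only [evq, disc, dg_coe hp, ha] at e ⊢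
  push_cast at e ⊢
  exact ⟨by linear_combination p * e, by ring⟩

theorem Ov.core (h : Ov V p) {D D' : ℤ} (d : D < 0) (d' : D' < 0) (hD : ¬ (p : ℤ) ∣ D)
    (hs : ¬ IsSquare (D * D')) {l l' : Fm} {τ τ' : ℍ} (e1 : disc l = D) (e2 : disc l' = D')
    (e3 : evq l τ = 0) (e4 : evq l' τ' = 0) (hF : ∃ γ : SL(2, ℤ), V (su (dg p) (γ • τ)) = 1) :
    1 ≤ V (jf τ - jf τ') := by
  by_contra! hc
  have hp := h.prime
  obtain ⟨_, ⟨τ, τ', rfl, ⟨l, e1, e3⟩, ⟨l', e2, e4⟩, ⟨g, hF⟩, hc⟩, hm⟩ := Set.exists_min_image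
    {x : ℂ × ℂ | ∃ τ τ' : ℍ, x = (jf τ, jf τ') ∧ (∃ l, disc l = D ∧ evq l τ = 0) ∧
      (∃ l, disc l = D' ∧ evq l τ' = 0) ∧ (∃ γ : SL(2, ℤ), V (su (dg p) (γ • τ)) = 1) ∧
      V (jf τ - jf τ') < 1} (fun x => V (x.1 - x.2))
    (((fin_j d).prod (fin_j d')).subset (by
      rintro _ ⟨τ, τ', rfl, a, b, -⟩
      exact ⟨⟨τ, a, rfl⟩, τ', b, rfl⟩)) ⟨_, τ, τ', rfl, ⟨l, e1, e3⟩, ⟨l', e2, e4⟩, hF, hc⟩
  simp only [← jf_smul g τ] at hc hm
  replace e3 := root_inv e3 g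
  rw [← Hd.disc_fa l g⁻¹] at e1
  generalize g • τ = τ at *
  generalize fa l g⁻¹ = l at *
  have j1 := h.cm (e1.trans_lt d) e3
  obtain ⟨g, hF'⟩ := h.tr (su_RR (dg_pos hp.pos)) j1 (h.cm (e2.trans_lt d') e4) hc
  replace hF' : V (su (dg p) (g • τ')) = 1 := by
    rw [← V.map_sub, ← hF] at hF'
    rw [← hF, ← h.add_eq hF', sub_add_cancel]
  simp only [← jf_smul g τ'] at hc hm
  replace e4 := root_inv e4 g
  rw [← Hd.disc_fa l' g⁻¹] at e2
  generalize g • τ' = τ' at *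
  generalize fa l' g⁻¹ = l' at *
  obtain ⟨v1, a, ha⟩ := h.st (e1.trans_lt d) e3 hF
  obtain ⟨-, a', ha'⟩ := h.st (e2.trans_lt d') e4 hF'
  obtain ⟨r1, r2⟩ := root_dg hp.pos e3 ha
  obtain ⟨r3, r4⟩ := root_dg hp.pos e4 ha'
  have c := h.con j1 (h.cm (e2.trans_lt d') e4) hF hF'
    (fun e => hs (e1 ▸ e2 ▸ sq_of_j (e1.trans_lt d) e3 e4 e)) hc
  refine (hm _ ⟨_, _, rfl, ⟨_, r2.trans e1, r1⟩, ⟨_, r4.trans e2, r3⟩, ?_, c.trans hc⟩).not_gt c
  refine h.ord ((r2.trans e1).trans_lt d) r1 (dvd_mul_right _ _) (fun b => hD ?_) ?_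
  · rw [← e1, disc, ha]
    exact dvd_sub (dvd_pow b two_ne_zero) (((dvd_mul_right _ a).mul_left 4).mul_right _)
  · rw [ha] at v1
    rw [dg_coe hp.pos]
    convert v1 using 2
    push_cast
    ring

theorem r2 : R2 := fun V p l l' τ τ' f D x h l0 l0' e e' hs hd ⟨n, hn⟩ hx => by
  by_contra! hc
  have d := disc_neg l0 e
  have d' := disc_neg l0' e'
  have f0 : f ≠ 0 := fun z => by simp [hd, z] at d
  obtain ⟨f, hd, f1⟩ : ∃ f, disc l = f ^ 2 * D ∧ 0 < l.1 * f := by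
    rcases (mul_ne_zero (fst_ne l0 e) f0).lt_or_gt with c | c
    · exact ⟨-f, by rw [hd, neg_sq], by linarith⟩
    · exact ⟨f, hd, c⟩
  replace f0 : f ≠ 0 := right_ne_zero_of_mul f1.ne'
  have D0 : D < 0 := by
    by_contra! c
    exact (hd ▸ d).not_ge (by positivity)
  obtain ⟨M, hM⟩ : ∃ M : M2, M = !![2 * l.1, l.2.1 + x * f; 0, 2 * f] := ⟨_, rfl⟩
  have M0 : 0 < M.det := by
    rw [hM, Matrix.det_fin_two_of]
    linarith
  have f2 : (f : ℂ) ≠ 0 := by exact_mod_cast f0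
  have c1 : ∀ σ, (mo M σ : ℂ) * (2 * f) = 2 * l.1 * σ + (l.2.1 + x * f) := fun σ => by
    rw [mo_coe M0, den, hM]
    simp
    field_simp
  obtain ⟨γ, hγ⟩ := h.tr (mo_RR M0 jf_RR) (h.cm d e) (h.cm d' e') hc
  obtain ⟨l₁, k, k0, h3, h4⟩ := pull (τ := mo M (γ • τ')) (m := 2 * f) (n := -(l.2.1 + x * f))
    (m' := 0) (n' := 2 * l.1) (root_inv e' γ) (by push_cast; linear_combination -c1 (γ • τ'))
    (by simpa using fst_ne l0 e)
  rw [Hd.disc_fa] at h4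
  have e1 : disc (1, -x, p * n) = D := by
    simp only [disc]
    linear_combination hn
  have e2 : evq (1, -x, p * n) (mo M τ) = 0 := by
    have h1 := evq_sq e
    have h2 : (x : ℂ) ^ 2 - D = 4 * p * n := by exact_mod_cast hn
    rw [hd] at h1
    simp only [evq]
    push_cast at h1 ⊢
    refine mul_right_cancel₀ (pow_ne_zero 2 (mul_ne_zero two_ne_zero f2)) ?_
    linear_combination h1 - f ^ 2 * h2 +
      ((mo M τ : ℂ) * (2 * f) + 2 * l.1 * τ + l.2.1 - x * f) * c1 τ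
  refine (h.core D0 (D' := disc l₁) (by rw [h4]; exact mul_neg_of_neg_of_pos d' (by positivity))
    (fun c => hx ((Nat.prime_iff_prime_int.1 h.prime).dvd_of_dvd_pow (n := 2) ?_))
    (fun ⟨y, hy⟩ => hs (sq_cancel k0 ⟨f * y, ?_⟩)) e1 rfl e2 h3 ?_).not_gt hγ
  · rw [show x ^ 2 = p * (4 * n) + D by linear_combination hn]
    exact dvd_add (dvd_mul_right _ _) c
  · rw [hd]
    linear_combination f ^ 2 * hy - f ^ 2 * D * h4
  · generalize mo M τ = σ at e2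
    rcases lt_or_ge (V σ) 1 with v | v
    · exact h.ord (e1.trans_lt D0) e2 (dvd_mul_right _ _) (by simpa using hx) (by simpa using v)
    · have e3 := Exp.T_coe (-x) σ
      have e4 : (σ : ℂ) * (σ - x) = -((p * n : ℤ) : ℂ) := by
        simp only [evq] at e2
        push_cast at e2 ⊢
        linear_combination e2
      obtain ⟨g, hg⟩ := h.ord (l := (1, x, p * n)) (τ := ModularGroup.T ^ (-x) • σ)
        (by rw [← e1] at D0; simpa [disc] using D0) (by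
          simp only [evq, e3]
          push_cast at e4 ⊢
          linear_combination e4) (dvd_mul_right _ _) hx (by
          have := h.of_dvd (dvd_mul_right (p : ℤ) n)
          rw [← V.map_neg, ← e4, map_mul] at this
          rw [e3]
          simpa [← sub_eq_add_neg] using (le_mul_of_one_le_left (V.nonneg _) v).trans_lt this)
      exact ⟨_, by rwa [mul_smul]⟩

/-! ### the Heegner divisors -/

theorem ex_x (hp : p.Prime) (h2 : p ≠ 2) {D : ℤ} (hJ : J(D | p) = 1) (h4 : D % 4 = 0 ∨ D % 4 = 1) :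
    ∃ x : ℤ, (4 * p : ℤ) ∣ x ^ 2 - D ∧ ¬ (p : ℤ) ∣ x := by
  haveI := Fact.mk hp
  obtain ⟨y, hy⟩ := ZMod.isSquare_of_jacobiSym_eq_one hJ
  obtain ⟨y, rfl⟩ := ZMod.intCast_surjective y
  have h1 : (p : ℤ) ∣ y ^ 2 - D := by
    rw [← ZMod.intCast_zmod_eq_zero_iff_dvd]
    push_cast
    rw [hy, sq, sub_self]
  have o : (p : ℤ) % 2 = 1 := by exact_mod_cast hp.eq_two_or_odd.resolve_left h2
  obtain ⟨x, a, b⟩ : ∃ x : ℤ, (p : ℤ) ∣ x ^ 2 - D ∧ (x - D) % 2 = 0 := by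
    rcases Int.emod_two_eq_zero_or_one (y - D) with c | c
    · exact ⟨y, h1, c⟩
    · refine ⟨y + p, ?_, by omega⟩
      rw [show (y + p) ^ 2 - D = y ^ 2 - D + p * (2 * y + p) by ring]
      exact dvd_add h1 (dvd_mul_right _ _)
  refine ⟨x, IsCoprime.mul_dvd ⟨(p - 1) / 2 * ((p - 1) / 2), 2 - p, ?_⟩ ?_ a, fun c => ?_⟩
  · obtain ⟨k, hk⟩ : ∃ k : ℤ, p = 2 * k + 1 := ⟨p / 2, by omega⟩
    rw [hk, show (2 * k + 1 - 1) / 2 = k by omega]
    ring
  · obtain ⟨k, rfl | rfl⟩ := Int.even_or_odd' x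
    · rw [show (2 * k) ^ 2 = 4 * (k * k) by ring]
      omega
    · rw [show (2 * k + 1) ^ 2 = 4 * (k * k + k) + 1 by ring]
      omega
  · rw [Hd.J_dvd hp.one_lt ((dvd_sub_right (dvd_pow c two_ne_zero)).1 a)] at hJ
    exact zero_ne_one hJ

theorem unit_fin {z : ℂ} (hz : IsIntegral ℤ z) (z0 : z ≠ 0) :
    {p : ℕ | ∃ V, Ov V p ∧ V z < 1}.Finite := by
  obtain ⟨m, m0, P, h1, h2⟩ := hz.isAlgebraic.inv.exists_integral_multiple
  refine (Set.finite_Iic m.natAbs).subset ?_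
  rintro p ⟨V, h, c⟩
  refine Nat.le_of_dvd (Int.natAbs_pos.2 m0) (Int.natCast_dvd.1 (by_contra fun d => c.not_ge ?_))
  have : V (m • z⁻¹) ≤ 1 := root_int (O := vO h.na) (P := P.map (algebraMap ℤ ℂ))
    (fun i => by rw [coeff_map]; exact h.le _) (by rw [(h1.map _).leadingCoeff, map_one])
    (by rwa [eval_map])
  rwa [zsmul_eq_mul, map_mul, h.of_ndvd d, one_mul, map_inv₀, inv_le_one₀ (V.pos z0)] at this

theorem off : OFF := fun hD _ N _ δ δ' β s h hs n r hn => by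
  obtain ⟨a1, a2, a3, a4⟩ := hD N δ h.ok n r
  obtain ⟨b1, -, b3, b4⟩ := hD N δ h.ok n (-r)
  have n0 : 0 < n := Nat.pos_of_ne_zero fun e => hn (by simp [e])
  have d0 : 0 < δ := zero_lt_one.trans h.ok.one
  have d1 : -((δ : ℤ) * n) < 0 := neg_neg_of_pos (by positivity)
  have k1 : ∀ τ, Zd N δ n r τ ≠ 0 → ∃ l, disc l = -((δ : ℤ) * n) ∧ evq l τ = 0 := fun τ e => by
    by_cases c : Zp N δ n r τ = 0
    · exact (b3 τ fun c' => e (by rw [a2, c, c', mul_zero, add_zero])).2.2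
    · exact (a3 τ c).2.2
  have k2 : ∀ r, (∀ γ ∈ Gamma0 N, ∀ z, Zp N δ n r (γ • z) = Zp N δ n r z) →
      (∃ s, Reps (Gamma0 N) (Zp N δ n r) s) → (Set.range (Zp N δ n r)).Finite := by
    rintro r c ⟨t, ht⟩
    refine ((t.finite_toSet.image (Zp N δ n r)).insert 0).subset ?_
    rintro _ ⟨z, rfl⟩
    refine or_iff_not_imp_left.2 fun e => ?_
    obtain ⟨γ, e1, e2⟩ := ht.ex z e
    exact ⟨_, e2, c γ e1 z⟩
  have f1 : (Set.range (Zd N δ n r)).Finite := by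
    refine ((k2 r a1 (a4 _ inferInstance le_rfl)).image2 (fun x y => x + eps δ * y)
      (k2 _ b1 (b4 _ inferInstance le_rfl))).subset ?_
    rintro _ ⟨z, rfl⟩
    exact ⟨_, ⟨z, rfl⟩, _, ⟨z, rfl⟩, (a2 z).symm⟩
  have f2 : (jf '' Function.support (Zd N δ n r)).Finite := (fin_j d1).subset (Set.image_mono k1)
  have k3 : ∀ τ, Zd N δ n r τ ≠ 0 → ∀ b ∈ s, ∃ l l', disc l = -((δ : ℤ) * n) ∧ evq l τ = 0 ∧
      disc l' = δ ^ 2 * -δ' ∧ evq l' b = 0 ∧ l ≠ 0 ∧ l' ≠ 0 ∧ ¬ IsSquare (disc l * disc l') :=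
    fun τ e b hb => by
    obtain ⟨l, c1, c2⟩ := k1 τ e
    obtain ⟨l', c3, c4, c5, -⟩ := Hd.Zp_ne (hs b hb)
    refine ⟨l, l', c1, c2, by rw [c3]; push_cast; ring, c4, ne_of_disc (c1.trans_lt d1),
      fun z => by simp [z] at c5, fun q => hn (Int.isSquare_natCast_iff.1
        (sq_cancel (k := δ) (by omega) ?_))⟩
    convert q using 1
    rw [c1, c3]
    push_cast
    ring
  refine ⟨fun p V hV hp => ⟨f1, f2, fun τ e b hb => ?_⟩, ?_⟩
  · obtain ⟨l, l', c1, c2, c3, c4, c5, c6, c7⟩ := k3 τ e b hb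
    have m8 := h.m8
    by_cases p2 : p = 2
    · subst p2
      rw [V.map_sub]
      exact r2 V 2 l' l b τ δ _ 1 hV c6 c5 c4 c2 (mul_comm (disc l) _ ▸ c7) c3 (by omega) (by omega)
    rcases hp with (c | c) | c
    · exact absurd c p2
    · obtain ⟨x, x1, x2⟩ := ex_x hV.prime p2 c (by omega)
      rw [V.map_sub]
      exact r2 V p l' l b τ δ _ x hV c6 c5 c4 c2 (mul_comm (disc l) _ ▸ c7) c3 x1 x2
    · obtain ⟨x, x1, x2⟩ := ex_x hV.prime p2 c (by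
        rw [← c1, disc, mul_assoc]
        obtain ⟨k, e | e⟩ := Int.even_or_odd' l.2.1
        · rw [e, show (2 * k) ^ 2 = 4 * (k * k) by ring]
          omega
        · rw [e, show (2 * k + 1) ^ 2 = 4 * (k * k + k) + 1 by ring]
          omega)
      exact r2 V p l l' τ b 1 _ x hV c5 c6 c2 c4 c7 (by rw [c1]; ring) x1 x2
  · refine (f2.biUnion (t := fun x => ⋃ b ∈ s, {p : ℕ | ∃ V, Ov V p ∧ V (x - jf b) < 1})
      ?_).subset ?_
    · rintro _ ⟨τ, e, rfl⟩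
      refine s.finite_toSet.biUnion fun b hb => ?_
      obtain ⟨l, l', c1, c2, c3, c4, c5, c6, c7⟩ := k3 τ e b hb
      exact unit_fin ((int l τ c5 c2).sub (int l' b c6 c4))
        (sub_ne_zero.2 fun z => c7 (sq_of_j (c1.trans_lt d1) c2 c4 z))
    · rintro p ⟨V, hV, c⟩
      by_contra! z
      simp only [Set.mem_iUnion, Set.mem_setOf_eq, not_exists, not_and, not_lt] at z
      exact c ⟨f1, f2, fun τ e b hb => z _ ⟨τ, e, rfl⟩ b hb V hV⟩

end Vale.Agent.P004Z.Fin
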