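import Vale.Agent.P004Z.Fin.Clr

/-! # P004Z, block G6: the local symbol -/

set_option autoImplicit false
set_option linter.all false

open UpperHalfPlane hiding I
open Polynomial CongruenceSubgroup Filter
open scoped MatrixGroups Classical

noncomputable section

namespace Vale.Agent.P004Z.Fin

open Vale.Agent.P022.H218.L3 Vale.Agent.P004H.H666 Vale.Agent.P022K.F0.Cf

variable {V : AbsoluteValue ℂ ℝ} {p N : ℕ} {A B : ℂ} {π : ℍ → (crv A B).Point} {e : ℍ → ℕ}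
  {xm : (crv A B).Point → Mer} {s : Finset ℍ}

theorem ev_ne {b : ℍ} {g : Mer} (n : g ≠ 0) (o : od b g = 0) : ev b g ≠ 0 := fun z =>
  ((ev_eq_zero n (reg_iff.2 (Or.inr o.ge))).1 z).ne' o

theorem lv_div {b : ℍ} {g g' : Mer} (n : g ≠ 0) (n' : g' ≠ 0) (o : od b g = 0) (o' : od b g' = 0) :
    Real.log (V (ev b (g / g'))) = Real.log (V (ev b g)) - Real.log (V (ev b g')) := by
  have := ev_mul (a := b) (y := g / g') (reg_iff.2 (Or.inr (by rw [od_div b n n', o, o']; rfl)))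
    (reg_iff.2 (Or.inr o'.ge))
  rw [div_mul_cancel₀ _ n'] at this
  rw [eq_div_of_mul_eq (ev_ne n' o') this.symm, map_div₀,
    Real.log_div (V.pos (ev_ne n o)).ne' (V.pos (ev_ne n' o')).ne']

/-- `∑ d_Y λ (P - Y)` -/
def ls (V : AbsoluteValue ℂ ℝ) (P : (crv A B).Point) : ((crv A B).Point →₀ ℤ) →+ ℝ :=
  Finsupp.liftAddHom fun Y => zmultiplesHom ℝ (H.lam V (P - Y))

theorem ls_apply (P : (crv A B).Point) (d : (crv A B).Point →₀ ℤ) :
    ls V P d = d.sum fun Y k => k * H.lam V (P - Y) :=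
  Finsupp.sum_congr fun _ _ => zsmul_eq_mul _ _

theorem ls_single (P Y : (crv A B).Point) : ls V P (Finsupp.single Y 1) = H.lam V (P - Y) := by
  simp [ls]

/-- the divisors `u + π^* d` of functions, with their symbols -/
def GG (V : AbsoluteValue ℂ ℝ) (N : ℕ) (π : ℍ → (crv A B).Point) (e : ℍ → ℕ) (s : Finset ℍ) :
    AddSubgroup ((ℍ → ℤ) × ((crv A B).Point →₀ ℤ) × (ℍ → ℝ)) := AddSubgroup.ofSub
  {x | (∀ b ∈ s, x.1 b = 0 ∧ x.2.1 (π b) = 0) ∧ ∃ g ∈ MF (Gamma0 N), g ≠ 0 ∧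
    (∀ τ, od τ g = x.1 τ + e τ * x.2.1 (π τ)) ∧
    ∃ c, ∀ b ∈ s, Real.log (V (ev b g)) + ls V (π b) x.2.1 = x.2.2 b + c}
  ⟨0, fun _ _ => ⟨rfl, rfl⟩, 1, one_mem _, one_ne_zero, fun τ => by simp [od_one], 0, fun b _ => by
    simpa using congrArg (fun z => Real.log (V z)) (ev_const b 1)⟩ (by
  rintro ⟨u, d, φ⟩ ⟨a, g, m, n, o, c, hc⟩ ⟨u', d', φ'⟩ ⟨a', g', m', n', o', c', hc'⟩
  dsimp only at *
  refine ⟨fun b hb => by simpa [a b hb] using a' b hb, g / g', div_mem m m', div_ne_zero n n',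
    fun τ => ?_, c - c', fun b hb => ?_⟩
  · rw [od_div τ n n', o, o']
    simp
    ring
  · have := hc b hb
    have := hc' b hb
    rw [lv_div n n' (by simp [o, a b hb]) (by simp [o', a' b hb])]
    simp at *
    linarith)

theorem Pk.gen (hP : Pk N A B π e xm) {M Z : (crv A B).Point} (hZ : Z ≠ 0)
    (h : ∀ b ∈ s, π b ≠ M ∧ π b ≠ M + Z ∧ π b ≠ M - Z) : (0, Finsupp.single (M + Z) 1 +
      Finsupp.single (M - Z) 1 - 2 • Finsupp.single M 1, 0) ∈ GG V N π e s := by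
  refine ⟨fun b hb => ⟨rfl, by simp [Finsupp.single_apply, Ne.symm, h b hb]⟩,
    xm M - algebraMap ℂ Mer (xp Z), sub_mem (hP.mem M) (IntermediateField.algebraMap_mem _ _),
    sub_ne_zero.2 (hP.ne M _), fun τ => ?_, 2 * H.lam V Z, fun b hb => ?_⟩
  · rw [hP.ord M Z τ hZ]
    simp [Finsupp.single_apply, eq_comm]
  · obtain ⟨h0, h1, h2⟩ := h b hb
    obtain ⟨r, v⟩ := hP.val M b h0
    have k := H.par (v := V) hP.hD (π b - M) Z
    rw [H.cc_aff (sub_ne_zero.2 h0) hZ (by rwa [sub_add, sub_ne_zero]) (by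
      rwa [sub_sub, sub_ne_zero]), map_pow, Real.log_pow, sub_add, sub_sub] at k
    rw [sub_eq_add_neg (xm M), ← map_neg, ev_add r (reg_const _ _), ev_const, v, ← sub_eq_add_neg]
    simp only [map_add, map_sub, map_nsmul, ls_single, nsmul_eq_mul, Pi.zero_apply]
    push_cast at k ⊢
    linarith

/-- pairs (divisor, sum) -/
def KK (G : AddSubgroup ((ℍ → ℤ) × ((crv A B).Point →₀ ℤ) × (ℍ → ℝ))) :
    AddSubgroup (((crv A B).Point →₀ ℤ) × (crv A B).Point) := AddSubgroup.ofSub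
  {x | ∀ᶠ T in cofinite,
    (0, 2 • (x.1 - Finsupp.single (T + x.2) 1 + Finsupp.single T 1), 0) ∈ G}
  ⟨0, (Eventually.of_forall fun T => by simp; exact G.zero_mem : ∀ᶠ T in cofinite, _)⟩ (by
  rintro ⟨d, Q⟩ a ⟨d', Q'⟩ a'
  rw [Set.mem_setOf_eq] at *
  filter_upwards [(sub_left_injective (b := Q')).tendsto_cofinite.eventually (a.and a')] with T k
  convert sub_mem k.1 k.2 using 1
  simp only [Prod.mk_sub_mk, sub_zero, Prod.neg_mk, Prod.mk_add_mk, sub_add_cancel]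
  rw [show T + (Q + -Q') = T - Q' + Q by abel]
  congr 2
  module)

theorem Pk.step (hP : Pk N A B π e xm) {Y O : (crv A B).Point} (hY : ∀ b ∈ s, π b ≠ Y)
    (hO : ∀ b ∈ s, π b ≠ O) :
    (Finsupp.single Y 1 - Finsupp.single O 1, Y - O) ∈ KK (GG V N π e s) := by
  by_cases c : Y = O
  · rw [c, sub_self, sub_self]
    exact zero_mem _
  have k : ∀ W : (crv A B).Point, ∀ᶠ T in cofinite, ∀ b ∈ s, T ≠ π b + W ∧ T ≠ W - π b := fun W =>
    (eventually_all_finset s).2 fun b _ => (eventually_cofinite_ne _).and (eventually_cofinite_ne _)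
  change ∀ᶠ T in cofinite, _
  filter_upwards [eventually_cofinite_ne O, eventually_cofinite_ne Y, k 0, k (Y + O), k (O - Y),
    k (Y - O)] with T t1 t2 t3 t4 t5 t6
  have n : ∀ b ∈ s, π b ≠ T ∧ π b ≠ Y + O - T ∧ π b ≠ T + Y - O ∧ π b ≠ T + O - Y := fun b hb =>
    ⟨fun z => (t3 b hb).1 (by rw [z]; abel), fun z => (t4 b hb).2 (by rw [z]; abel),
      fun z => (t5 b hb).1 (by rw [z]; abel), fun z => (t6 b hb).1 (by rw [z]; abel)⟩
  have g1 := hP.gen (V := V) (M := Y) (sub_ne_zero.2 t1.symm) (s := s)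
  have g2 := hP.gen (V := V) (M := T) (sub_ne_zero.2 (Ne.symm c)) (s := s)
  have g3 := hP.gen (V := V) (M := O) (sub_ne_zero.2 t2) (s := s)
  rw [show Y + (O - T) = Y + O - T by abel, show Y - (O - T) = T + Y - O by abel] at g1
  rw [show T + (O - Y) = T + O - Y by abel, show T - (O - Y) = T + Y - O by abel] at g2
  rw [show O + (T - Y) = T + O - Y by abel, show O - (T - Y) = Y + O - T by abel] at g3
  convert sub_mem (g3 fun b hb => ⟨hO b hb, (n b hb).2.2.2, (n b hb).2.1⟩) (add_mem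
    (g1 fun b hb => ⟨hY b hb, (n b hb).2.1, (n b hb).2.2.1⟩)
    (g2 fun b hb => ⟨(n b hb).1, (n b hb).2.2.2, (n b hb).2.2.1⟩)) using 1
  simp only [Prod.mk_sub_mk, sub_zero, Prod.mk_add_mk, add_zero, add_sub_assoc']
  congr 2
  module

theorem Pk.ex_Q (hP : Pk N A B π e xm) {d : (crv A B).Point →₀ ℤ} (h0 : (d.sum fun _ k => k) = 0)
    (hd : ∀ b ∈ s, d (π b) = 0) : ∃ Q, (d, Q) ∈ KK (GG V N π e s) := by
  obtain ⟨x, hx⟩ := Infinite.exists_notMem_finset (s.image fun b => xp (π b))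
  obtain ⟨O, -, rfl⟩ := ex_pt hP.hD x
  refine ⟨∑ Y ∈ d.support, d Y • (Y - O), ?_⟩
  convert sum_mem fun Y (hY : Y ∈ d.support) => zsmul_mem (hP.step (V := V) (s := s) (Y := Y) (O := O)
    (fun b hb z => Finsupp.mem_support_iff.1 hY (z ▸ hd b hb))
    fun b hb z => hx (z ▸ Finset.mem_image_of_mem _ hb)) (d Y) using 1
  refine Prod.ext ?_ (by simp [Prod.snd_sum])
  simp only [Prod.fst_sum, Prod.smul_mk, smul_sub, Finset.sum_sub_distrib, ← Finset.sum_smul]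
  rw [show ∑ Y ∈ d.support, d Y = 0 from h0]
  simp only [zero_smul, sub_zero, Finsupp.smul_single_one]
  exact d.sum_single.symm

theorem Pk.ex_P [NeZero N] (hP : Pk N A B π e xm) (h : Ov V p) {b₀ : ℍ} (h0 : b₀ ∈ s) :
    ∃ S : Finset (crv A B).Point, ∀ r, ∃ K : ℝ, ∀ T, (∀ R ∈ S, T - R ≠ 0 ∧ V (xp (T - R)) ≤ r) →
      ∃ P ∈ PI h, (∀ b ∈ s, P.eval (jf b) ≠ 0 ∧ -Real.log (V (P.eval (jf b))) ≤ K ∧
        |H.lam V (π b - T)| ≤ K) ∧
        ∀ τ, e τ * Finsupp.single T (1 : ℤ) (π τ) ≤ od τ (aeval jM P) := by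
  obtain ⟨Φ, h1, h2⟩ := ex_phi (hP.mem 0)
  choose R R0 hR using ex_pt hP.hD
  refine ⟨insert 0 (s.image π ∪ s.biUnion fun b => (Φ.map (evalRingHom (jf b))).roots.toFinset.biUnion
    fun ρ => {R ρ, -R ρ}), fun r => ?_⟩
  obtain ⟨κ, κ0, hκ⟩ := h.bd_phi Φ r
  obtain ⟨C₀, hC⟩ := H.lam_bd V hP.hD
  obtain ⟨K, k1, k2⟩ : ∃ K : ℝ, (∀ W : (crv A B).Point, -K ≤ H.lam V W) ∧
      ∀ W : (crv A B).Point, W ≠ 0 ∧ V (xp W) ≤ r → H.lam V W ≤ K := by
    refine ⟨C₀ + Real.posLog r / 2, fun W => ?_, fun W hW => ?_⟩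
    · linarith [(abs_le.1 (hC W)).1, H.nh_nonneg (v := V) W, Real.posLog_nonneg (x := r)]
    · linarith [(abs_le.1 (hC W)).2, H.nh_ne (v := V) hW.1, Real.posLog_le_posLog (V.nonneg _) hW.2]
  choose K' hK' using fun b : ℍ => low_poly (V := V) (h2 (jf b)) (6 * K)
  obtain ⟨K₂, hK₂⟩ := (insert K (s.image fun b => -Real.log (V κ) + K' b)).bddAbove
  refine ⟨K₂, fun T hT => ?_⟩
  obtain ⟨T0, T1⟩ := hT 0 (by simp)
  rw [sub_zero] at T0 T1
  have k : ∀ b ∈ s, (Φ.eval (C (xp T))).eval (jf b) ≠ 0 ∧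
      -Real.log (V ((Φ.eval (C (xp T))).eval (jf b))) ≤ K' b := fun b hb => by
    have := hK' b (xp T) fun ρ hρ => by
      have m : ∀ W ∈ ({R ρ, -R ρ} : Finset _), T - W ≠ 0 ∧ V (xp (T - W)) ≤ r := fun W hW =>
        hT W (Finset.mem_insert_of_mem (Finset.mem_union_right _ (Finset.mem_biUnion.2 ⟨b, hb,
          Finset.mem_biUnion.2 ⟨ρ, Multiset.mem_toFinset.2 hρ, hW⟩⟩)))
      have m1 := m (R ρ) (by simp)
      have m2 := m (-R ρ) (by simp)
      rw [sub_neg_eq_add] at m2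
      have a := H.par (v := V) hP.hD T (R ρ)
      have a' := H.cc_ne hP.hD T (R ρ)
      rw [H.cc_aff T0 (R0 ρ) m2.1 m1.1, hR] at a a'
      rw [map_pow, Real.log_pow] at a
      push_cast at a
      exact ⟨fun z => a' (by rw [z]; simp), by linarith [k1 T, k1 (R ρ), k2 _ m1, k2 _ m2]⟩
    rwa [map_evalRingHom_eval] at this
  refine ⟨_, hκ _ T1, fun b hb => ?_, fun τ => ?_⟩
  · have m := hT (π b) (Finset.mem_insert_of_mem (Finset.mem_union_left _
      (Finset.mem_image_of_mem _ hb)))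
    have a1 : K ≤ K₂ := hK₂ (by simp)
    have a2 := hK₂ (Finset.mem_insert_of_mem (Finset.mem_image_of_mem _ hb))
    rw [eval_mul, eval_C, map_mul, Real.log_mul (V.pos κ0).ne' (V.pos (k b hb).1).ne', ← neg_sub,
      H.lam_neg]
    exact ⟨mul_ne_zero κ0 (k b hb).1, by linarith [(k b hb).2],
      (abs_le.2 ⟨k1 _, k2 _ m⟩).trans a1⟩
  · have n : Φ.eval (C (xp T)) ≠ 0 := fun z => (k b₀ h0).1 (by rw [z, eval_zero])
    rw [od_aj_mul τ (C_ne_zero.2 κ0) n, aeval_C, od_const, zero_add, Finsupp.single_apply]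
    split_ifs with c
    · refine le_trans ?_ (od_phi h1 (hP.val 0 τ (c ▸ T0)).1 n)
      rw [hP.ord 0 T τ T0, zero_add, if_pos c.symm, if_neg (show π τ ≠ 0 from c ▸ T0)]
      split_ifs <;> omega
    · rw [mul_zero]
      exact od_aj _ _

theorem fn : FN := fun N _ δ δ' β s p V A B π e xm H hs h hP y hy y0 u hu d d0 hd ho => by
  rcases s.eq_empty_or_nonempty with rfl | ⟨b₀, h0⟩
  · exact ⟨0, by simp⟩
  obtain ⟨hj, hM⟩ := h.mp H hs
  obtain ⟨L, l1, l0, l2, l3⟩ := hu.clear h hj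
  obtain ⟨Q, hQ⟩ := hP.ex_Q (V := V) d0 hd
  obtain ⟨S, hS⟩ := hP.ex_P h h0
  obtain ⟨r, hr⟩ := h.pack hP.hD (S.card + S.card)
  obtain ⟨K, hK⟩ := hS r
  obtain ⟨φ, hφ⟩ : ∃ φ : ℍ → ℝ, ∀ b, Real.log (V (ev b y)) + ls V (π b) d = φ b := ⟨_, fun _ => rfl⟩
  have m0 : (u, d, φ) ∈ GG V N π e s := ⟨fun b hb => ⟨by_contra fun z => by
    simpa [zero_lt_one.not_ge] using hu.far b z b hb, hd b hb⟩, y, hy, y0, ho, 0,
    fun b _ => (hφ b).trans (add_zero _).symm⟩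
  have k : ∀ m : ℕ, ∃ c, ∀ b ∈ s, |2 * m * φ b - c| ≤ 8 * K := fun m => by
    obtain ⟨T, t1, t2⟩ := ((hr (S ∪ S.image (· - m • Q)) ((Finset.card_union_le _ _).trans
      (Nat.add_le_add_left Finset.card_image_le _))).and_eventually (nsmul_mem hQ m)).exists
    obtain ⟨P, p1, p2, p3⟩ := hK T fun R hR => t1 R (Finset.mem_union_left _ hR)
    obtain ⟨P', q1, q2, q3⟩ := hK (T + m • Q) fun R hR => by
      simpa only [sub_sub_eq_add_sub] using
        t1 _ (Finset.mem_union_right _ (Finset.mem_image_of_mem _ hR))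
    have m1 : ((2 * m) • u, 2 • (Finsupp.single (T + m • Q) 1 - Finsupp.single T 1), (2 * m) • φ) ∈
        GG V N π e s := by
      convert sub_mem (nsmul_mem m0 (2 * m)) t2 using 1
      simp only [Prod.smul_mk, Prod.mk_sub_mk, sub_zero]
      congr 2
      module
    obtain ⟨-, g, g1, g0, g2, c, g3⟩ := m1
    have n : P ≠ 0 := fun z => (p2 b₀ h0).1 (by rw [z, eval_zero])
    have n' : P' ≠ 0 := fun z => (q2 b₀ h0).1 (by rw [z, eval_zero])
    have l4 : ∀ b ∈ s, L.eval (jf b) ≠ 0 := fun b hb z => by simpa [z] using l2 b hb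
    obtain ⟨c', hc⟩ := hM g g1 g0 (L ^ (2 * m) * (P * P') ^ 2)
      (mem_PI.1 (mul_mem (pow_mem l1 _) (pow_mem (mul_mem p1 q1) _)))
      (fun b hb => by simp [l4 b hb, (p2 b hb).1, (q2 b hb).1]) fun τ => by
      rw [od_aj_mul τ (pow_ne_zero _ l0) (pow_ne_zero _ (mul_ne_zero n n')), map_pow, map_pow, od_pow,
        od_pow, od_aj_mul τ n n', g2]
      have a : ∀ W : (crv A B).Point, (0 : ℤ) ≤ e τ * Finsupp.single W (1 : ℤ) (π τ) := fun W => by
        rw [Finsupp.single_apply]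
        positivity
      have a1 := mul_le_mul_of_nonneg_left (abs_le.1 (l3 τ)).1 (Int.natCast_nonneg m)
      have a2 := mul_le_mul_of_nonneg_left (abs_le.1 (l3 τ)).2 (Int.natCast_nonneg m)
      simp only [Pi.smul_apply, Finsupp.smul_apply, Finsupp.sub_apply, nsmul_eq_mul]
      push_cast
      exact abs_le.2 ⟨by nlinarith [p3 τ, q3 τ, a T, a (T + m • Q)],
        by nlinarith [p3 τ, q3 τ, a T, a (T + m • Q)]⟩
    refine ⟨c' - c, fun b hb => ?_⟩
    have a := hc b hb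
    have a' := g3 b hb
    obtain ⟨a1, a2, a3⟩ := p2 b hb
    obtain ⟨a4, a5, a6⟩ := q2 b hb
    rw [eval_mul, eval_pow, eval_pow, eval_mul, map_mul, map_pow, map_pow, l2 b hb, one_pow, one_mul,
      Real.log_pow, map_mul, Real.log_mul (V.pos a1).ne' (V.pos a4).ne'] at a
    simp only [map_nsmul, map_sub, ls_single, nsmul_eq_mul, Pi.smul_apply] at a'
    push_cast at a a'
    rw [abs_le] at *
    exact ⟨by linarith [a.1, a3.1, a6.2], by linarith [a.2, a3.2, a6.1]⟩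
  refine ⟨φ b₀, fun b hb => ?_⟩
  rw [← ls_apply, hφ, ← sub_eq_zero, ← abs_nonpos_iff, ← not_lt]
  intro c
  obtain ⟨m, hm⟩ := exists_nat_gt (8 * K / |φ b - φ b₀|)
  obtain ⟨c', hc⟩ := k m
  have := abs_sub_le (2 * m * φ b) c' (2 * m * φ b₀)
  rw [← mul_sub, abs_mul, abs_of_nonneg (by positivity), abs_sub_comm c'] at this
  rw [div_lt_iff₀ c] at hm
  linarith [hc b hb, hc b₀ h0]

end Vale.Agent.P004Z.Fin
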