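import Vale.Agent.P004Z.Fin.St
import Vale.Agent.P004M.D.Iv0
import Vale.Agent.P027M.M.Exp
import Vale.Agent.P027M.M.CPbm

/-! # P004Z, block G6: integral modular functions -/

set_option autoImplicit false
set_option linter.all false

open UpperHalfPlane hiding I
open Polynomial CongruenceSubgroup
open scoped MatrixGroups ModularForm Manifold Classical

noncomputable section

namespace Vale.Agent.P004Z.Fin

open Vale.Agent.P022.H218.L3 Vale.Agent.P022.H231.L3 Vale.Agent.P022.H236.L3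
  Vale.Agent.P022.H542.L3 Vale.Agent.P022D.Irr Vale.Agent.P027M.M Vale.Agent.P004M.D
  Vale.Agent.P022D

/-! ### the valuation ring -/

section vo
variable {V : AbsoluteValue ℂ ℝ}

/-- the valuation ring of `V` -/
def vO (h : IsNonarchimedean V) : ValuationSubring ℂ where
  carrier := {x | V x ≤ 1}
  mul_mem' {a b} ha hb := by
    change V (a * b) ≤ 1
    rw [map_mul]
    exact mul_le_one₀ ha (V.nonneg _) hb
  one_mem' := V.map_one.le
  add_mem' {a b} ha hb := (h a b).trans (max_le ha hb)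
  zero_mem' := V.map_zero.trans_le zero_le_one
  neg_mem' {a} ha := (V.map_neg a).trans_le ha
  mem_or_inv_mem' x := by
    change V x ≤ 1 ∨ V x⁻¹ ≤ 1
    rw [map_inv₀]
    exact (le_total _ _).imp_right inv_le_one_of_one_le₀

variable {h : IsNonarchimedean V} {x : ℂ}

theorem mem_vO : x ∈ vO h ↔ V x ≤ 1 := Iff.rfl

theorem vO_lt : (vO h).valuation x < 1 ↔ V x < 1 := by
  rw [← ValuationSubring.mem_nonunits_iff, ValuationSubring.mem_nonunits_iff_or, mem_vO, map_inv₀,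
    not_le]
  by_cases e : x = 0
  · simp [e]
  · simp [e, one_lt_inv₀ (V.pos e)]

theorem vO_one : (vO h).valuation x = 1 ↔ V x = 1 := by
  rw [le_antisymm_iff, le_antisymm_iff, ValuationSubring.valuation_le_one_iff, mem_vO,
    ← not_lt (a := (vO h).valuation x), vO_lt, not_lt]

theorem vO_arch : Arch (vO h) := fun a c ha hc => by
  obtain ⟨m, hm⟩ := pow_unbounded_of_one_lt (V c)⁻¹ (not_le.1 ha)
  refine ⟨m, ?_⟩
  rwa [mem_vO, not_le, map_mul, map_pow, ← inv_lt_iff_one_lt_mul₀' (V.pos hc)]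

end vo

variable {O : ValuationSubring ℂ}

/-! ### series -/

/-- leading term -/
def Ld (k : ℤ) (c : ℂ) (s : LS) : Prop := (∀ n < k, s.coeff n = 0) ∧ s.coeff k = c

theorem ld_iff {k : ℤ} {c : ℂ} {s : LS} :
    Ld k c s ↔ ∃ F, s = ls k F ∧ PowerSeries.constantCoeff F = c := by
  have e : ∀ F, (ls k F).coeff k = PowerSeries.constantCoeff F := fun F => by
    simpa using coeff_ls k F 0
  constructor
  · rintro ⟨h, rfl⟩
    have := ls_ext (F := PowerSeries.mk fun n => s.coeff (k + n)) (fun n => by simp) h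
    exact ⟨_, this, by rw [← e, ← this]⟩
  · rintro ⟨F, rfl, rfl⟩
    exact ⟨fun n => coeff_ls_of_lt k F, e F⟩

theorem Ld.mul {k l : ℤ} {c d : ℂ} {s t : LS} (h : Ld k c s) (h' : Ld l d t) :
    Ld (k + l) (c * d) (s * t) := by
  obtain ⟨F, rfl, rfl⟩ := ld_iff.1 h
  obtain ⟨G, rfl, rfl⟩ := ld_iff.1 h'
  exact ld_iff.2 ⟨_, ls_mul .., map_mul ..⟩

theorem ld_C (c : ℂ) : Ld 0 c (HahnSeries.C c) := ld_iff.2 ⟨_, (ls_C c).symm, by simp⟩

theorem Ld.pow {k : ℤ} {c : ℂ} {s : LS} (h : Ld k c s) (n : ℕ) : Ld (n * k) (c ^ n) (s ^ n) := by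
  induction n with
  | zero => simpa using ld_C 1
  | succ n ih =>
    rw [pow_succ, pow_succ, Nat.cast_succ, add_mul, one_mul]
    exact ih.mul h

theorem Ld.uniq {k l : ℤ} {c d : ℂ} {s : LS} (h : Ld k c s) (h' : Ld l d s) (hc : c ≠ 0)
    (hd : d ≠ 0) : c = d := by
  rcases lt_trichotomy k l with e | rfl | e
  · exact absurd (h.2.symm.trans (h'.1 k e)) hc
  · exact h.2.symm.trans h'.2
  · exact absurd (h'.2.symm.trans (h.1 l e)) hd

theorem Ld.eval {k : ℤ} {c : ℂ} {s : LS} (h : Ld k c s) (hk : k < 0) (P : ℂ[X]) :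
    Ld (P.natDegree * k) (P.leadingCoeff * c ^ P.natDegree) (eval₂ HahnSeries.C s P) := by
  have h1 : ∀ i : ℕ, Ld (i * k) (P.coeff i * c ^ i) (HahnSeries.C (P.coeff i) * s ^ i) := fun i => by
    simpa using (ld_C (P.coeff i)).mul (h.pow i)
  have h2 : ∀ n ≤ P.natDegree * k, (∑ i ∈ Finset.range P.natDegree,
      HahnSeries.C (P.coeff i) * s ^ i).coeff n = 0 := fun n hn => by
    rw [HahnSeries.coeff_sum]
    refine Finset.sum_eq_zero fun i hi => (h1 i).1 n (hn.trans_lt ?_)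
    exact mul_lt_mul_of_neg_right (by exact_mod_cast Finset.mem_range.1 hi) hk
  rw [eval₂_eq_sum_range, Finset.sum_range_succ]
  refine ⟨fun n hn => ?_, ?_⟩
  · rw [HahnSeries.coeff_add, h2 n hn.le, (h1 _).1 n hn, add_zero]
  · rw [HahnSeries.coeff_add, h2 _ le_rfl, (h1 _).2, zero_add, leadingCoeff]

/-- integral with a unit as leading coefficient -/
def Gd (O : ValuationSubring ℂ) (k : ℤ) (s : LS) : Prop :=
  s ∈ Int O ∧ ∃ c, O.valuation c = 1 ∧ Ld k c s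

theorem Gd.mul {k l : ℤ} {s t : LS} (h : Gd O k s) (h' : Gd O l t) : Gd O (k + l) (s * t) := by
  obtain ⟨a, c, b, e⟩ := h
  obtain ⟨a', c', b', e'⟩ := h'
  exact ⟨mul_mem a a', _, by rw [map_mul, b, b', one_mul], e.mul e'⟩

theorem gd_one : Gd O 0 1 := ⟨one_mem _, 1, map_one _, by simpa using ld_C 1⟩

theorem Gd.sub {k l : ℤ} {s t : LS} (h : Gd O k s) (h' : Gd O l t) (e : k ≠ l) :
    Gd O (min k l) (s - t) := by
  obtain ⟨a, c, b, e1, e2⟩ := h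
  obtain ⟨a', c', b', e1', e2'⟩ := h'
  refine ⟨sub_mem a a', _, ?_, fun n hn => ?_, rfl⟩
  · rw [HahnSeries.coeff_sub]
    rcases lt_or_gt_of_ne e with e | e
    · rw [min_eq_left e.le, e2, e1' k e, sub_zero, b]
    · rw [min_eq_right e.le, e2', e1 l e, zero_sub, Valuation.map_neg, b']
  · rw [HahnSeries.coeff_sub, e1 n (lt_min_iff.1 hn).1, e1' n (lt_min_iff.1 hn).2, sub_zero]

theorem gd_sb {c : ℕ} (hc : 0 < c) {k : ℤ} {s : LS} : Gd O (c * k) (sb c hc s) ↔ Gd O k s := by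
  have c0 : (0 : ℤ) < c := by exact_mod_cast hc
  refine and_congr (sb_int hc) (exists_congr fun u => and_congr_right fun _ =>
    and_congr ⟨fun h n hn => ?_, fun h n hn => ?_⟩ (by rw [coeff_sb_mul]))
  · rw [← coeff_sb_mul c hc]
    exact h _ (mul_lt_mul_of_pos_left hn c0)
  · by_cases d : (c : ℤ) ∣ n
    · obtain ⟨m, rfl⟩ := d
      rw [coeff_sb_mul]
      exact h _ (lt_of_mul_lt_mul_left hn c0.le)
    · exact coeff_sb_of_not_dvd _ _ _ _ d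

theorem Gd.of_sb {c : ℕ} {hc : 0 < c} {k : ℤ} {s : LS} (h : Gd O k (sb c hc s)) :
    ∃ l, Gd O l s := by
  have d : (c : ℤ) ∣ k := by_contra fun d => by
    obtain ⟨-, u, a, -, b⟩ := h
    rw [← b, coeff_sb_of_not_dvd _ _ _ _ d] at a
    simp at a
  obtain ⟨l, rfl⟩ := d
  exact ⟨l, (gd_sb hc).1 h⟩

theorem rs_int {z : ℂ} (z0 : z ≠ 0) (hz : O.valuation z = 1) {s : LS} (h : s ∈ Int O) :
    rs z z0 s ∈ Int O := mem_Int.2 fun n => by
  rw [← O.valuation_le_one_iff, coeff_rs, map_mul, map_zpow₀, hz, one_zpow, one_mul]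
  exact Iv.le1 (mem_Int.1 h n)

theorem Gd.rs {z : ℂ} (z0 : z ≠ 0) (hz : O.valuation z = 1) {k : ℤ} {s : LS} (h : Gd O k s) :
    Gd O k (rs z z0 s) := by
  obtain ⟨a, c, b, e1, e2⟩ := h
  exact ⟨rs_int z0 hz a, _, by rw [coeff_rs, map_mul, map_zpow₀, hz, one_zpow, one_mul, e2, b],
    fun n hn => by rw [coeff_rs, e1 n hn, mul_zero], rfl⟩

theorem gd_of {k : ℤ} {s : LS} (h : Good 1 k s) : Gd O k s := by
  have m : ∀ {z}, z ∈ ZN 1 → z ∈ O := ZN_le one_pos (by simp)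
  refine ⟨mem_Int.2 fun n => m (h.int n), _, le_antisymm (Iv.le1 (m (h.int k))) ?_,
    fun n => h.lt, rfl⟩
  have := Iv.le1 (m h.unit)
  rwa [map_inv₀, inv_le_one₀ (zero_lt_iff.2 ((_root_.map_ne_zero _).2 h.lead))] at this

theorem Gd.red_ne {k : ℤ} {s : LS} (h : Gd O k s) : P022D.Irr.red O ⟨s, h.1⟩ ≠ 0 := fun e => by
  obtain ⟨-, c, b, -, e2⟩ := id h
  have := red_zero.1 e k
  rw [e2, b] at this
  exact this.false

/-! ### expansions at infinity -/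

theorem ex_lev {n M : ℕ} (hn : 0 < n) (hM : 0 < M) {s : LS} {f : ℍ → ℂ} (h : ExL n s f)
    (hT : ∀ τ, f (ModularGroup.T ^ (M : ℤ) • τ) = f τ) :
    ∃ t, ExL M t f ∧ sb n hn t = sb M hM s := by
  have b := exL_period hM hn.ne' h
  rw [mul_comm] at b
  have a := b.tauAdd (Nat.mul_pos hM hn).ne' (M * 1) (Exp.T_coe _)
  have e := Exp.ze_pow hM hn 1
  rw [ze, zpow_one] at e
  rw [e, mul_one, funext hT] at a
  obtain ⟨t, ht⟩ := Exp.exists_sb hn (Complex.isPrimitiveRoot_exp n hn.ne')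
    (a.unique (Nat.mul_pos hM hn).ne' b)
  exact ⟨t, Exp.exL_down hn hM (ht ▸ b), ht⟩

theorem ex_two {n m : ℕ} (hn : 0 < n) (hm : 0 < m) {s t : LS} {f g : ℍ → ℂ} (h : ExL n s f)
    (h' : ExL m t g) : ExL (n * m) (sb m hm s) f ∧ ExL (n * m) (sb n hn t) g :=
  ⟨exL_period hm hn.ne' h, mul_comm m n ▸ exL_period hn hm.ne' h'⟩

/-- integral expansions -/
def Iq (O : ValuationSubring ℂ) : Subring (ℍ → ℂ) where
  carrier := {f | ∃ n, 0 < n ∧ ∃ s ∈ Int O, ExL n s f}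
  mul_mem' := by
    rintro f g ⟨n, hn, s, a, b⟩ ⟨m, hm, t, c, d⟩
    exact ⟨_, Nat.mul_pos hn hm, _, mul_mem ((sb_int hm).2 a) ((sb_int hn).2 c),
      (ex_two hn hm b d).1.mul (ex_two hn hm b d).2⟩
  add_mem' := by
    rintro f g ⟨n, hn, s, a, b⟩ ⟨m, hm, t, c, d⟩
    exact ⟨_, Nat.mul_pos hn hm, _, add_mem ((sb_int hm).2 a) ((sb_int hn).2 c),
      (ex_two hn hm b d).1.add (ex_two hn hm b d).2⟩
  one_mem' := ⟨1, one_pos, 1, one_mem _, ExL.one 1⟩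
  zero_mem' := ⟨1, one_pos, 0, zero_mem _, ExL.zero 1⟩
  neg_mem' := by
    rintro f ⟨n, hn, s, a, b⟩
    exact ⟨n, hn, _, neg_mem a, b.neg⟩

theorem const_Iq {c : ℂ} (h : c ∈ O) : (fun _ => c) ∈ Iq O :=
  ⟨1, one_pos, _, C_mem h, ExL.const 1 c⟩

/-- unit expansions -/
def Gq (O : ValuationSubring ℂ) (f : ℍ → ℂ) : Prop := ∃ n, 0 < n ∧ ∃ k s, Gd O k s ∧ ExL n s f

theorem Gq.mem {f : ℍ → ℂ} (h : Gq O f) : f ∈ Iq O := by
  obtain ⟨n, hn, k, s, a, b⟩ := h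
  exact ⟨n, hn, s, a.1, b⟩

theorem Gq.mul {f g : ℍ → ℂ} (h : Gq O f) (h' : Gq O g) : Gq O (f * g) := by
  obtain ⟨n, hn, k, s, a, b⟩ := h
  obtain ⟨m, hm, l, t, c, d⟩ := h'
  exact ⟨_, Nat.mul_pos hn hm, _, _, ((gd_sb hm).2 a).mul ((gd_sb hn).2 c),
    (ex_two hn hm b d).1.mul (ex_two hn hm b d).2⟩

/-! ### integral matrices -/

/-- the action of matrices of positive determinant -/
def mo (A : M2) (τ : ℍ) : ℍ := if h : 0 < A.det then gl A h • τ else τ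

/-- the denominator -/
def den (A : M2) (τ : ℍ) : ℂ := (A 1 0 : ℂ) * τ + A 1 1

section mo
variable {A B : M2}

theorem mo_eq (h : 0 < A.det) (τ : ℍ) : mo A τ = gl A h • τ := dif_pos h

theorem mo_coe (h : 0 < A.det) (τ : ℍ) : (mo A τ : ℂ) = (A 0 0 * τ + A 0 1) / den A τ := by
  rw [mo_eq h, coe_gl_smul, den]

theorem den_ne (h : 0 < A.det) (τ : ℍ) : den A τ ≠ 0 := fun e => by
  have h1 : (A 1 0 : ℝ) * τ.im = 0 := by simpa [den] using congrArg Complex.im e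
  have h2 : A 1 0 = 0 := by exact_mod_cast (mul_eq_zero.1 h1).resolve_right τ.im_pos.ne'
  have h3 : A 1 1 = 0 := by simpa [den, h2] using e
  simp [Matrix.det_fin_two, h2, h3] at h

theorem pos_mul (h : 0 < A.det) (h' : 0 < B.det) : 0 < (A * B).det := by
  rw [Matrix.det_mul]
  exact mul_pos h h'

theorem mo_mul (h : 0 < A.det) (h' : 0 < B.det) (τ : ℍ) : mo (A * B) τ = mo A (mo B τ) := by
  rw [mo_eq (pos_mul h h'), mo_eq h, mo_eq h', gl_mul h h', mul_smul]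

theorem mo_SL (γ : SL(2, ℤ)) (τ : ℍ) : mo γ τ = γ • τ := by
  rw [mo_eq (SL_pos γ), gl_SL]
  rfl

theorem den_mul (h' : 0 < B.det) (τ : ℍ) : den (A * B) τ = den A (mo B τ) * den B τ := by
  rw [den, den.eq_1 A, mo_coe h', add_mul, mul_assoc, div_mul_cancel₀ _ (den_ne h' τ), den]
  simp [Matrix.mul_apply, Fin.sum_univ_two]
  ring

theorem mo_hol (h : 0 < A.det) {f : ℍ → ℂ} (hf : f ∈ Hol) : (fun τ => f (mo A τ)) ∈ Hol := by
  simp only [mo_eq h]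
  exact comp_mem' _ (gl_pos A h) hf

theorem tri_pos {a d : ℕ} (b : ℤ) (ha : 0 < a) (hd : 0 < d) :
    0 < (!![(a : ℤ), b; 0, (d : ℤ)] : M2).det := by
  rw [Matrix.det_fin_two_of]
  rw [mul_zero, sub_zero]
  positivity

theorem tri_coe {a d : ℕ} (b : ℤ) (ha : 0 < a) (hd : 0 < d) (τ : ℍ) :
    (mo !![(a : ℤ), b; 0, (d : ℤ)] τ : ℂ) = (a * (τ : ℂ) + b) / d := by
  rw [mo_coe (tri_pos b ha hd), den]
  simp

theorem Iq_tri {a d : ℕ} (b : ℤ) (ha : 0 < a) (hd : 0 < d) {f : ℍ → ℂ} (h : f ∈ Iq O) :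
    (fun τ => f (mo !![(a : ℤ), b; 0, (d : ℤ)] τ)) ∈ Iq O := by
  obtain ⟨n, hn, s, h1, h2⟩ := h
  exact ⟨_, Nat.mul_pos hn hd, _, (sb_int ha).2 (rs_int _ (val_ze (Nat.mul_pos hn hd) b) h1),
    Exp.exL_aff b ha hd hn h2 (tri_coe b ha hd)⟩

theorem Gq.tri {a d : ℕ} (b : ℤ) (ha : 0 < a) (hd : 0 < d) {f : ℍ → ℂ} (h : Gq O f) :
    Gq O fun τ => f (mo !![(a : ℤ), b; 0, (d : ℤ)] τ) := by
  obtain ⟨n, hn, k, s, h1, h2⟩ := h
  exact ⟨_, Nat.mul_pos hn hd, _, _, (gd_sb ha).2 (h1.rs _ (val_ze (Nat.mul_pos hn hd) b)),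
    Exp.exL_aff b ha hd hn h2 (tri_coe b ha hd)⟩

end mo

/-! ### the ring of integral modular functions -/

/-- invariance -/
def Nv (Γ : Subgroup SL(2, ℤ)) (f : ℍ → ℂ) : Prop := ∀ γ ∈ Γ, ∀ τ, f (γ • τ) = f τ

theorem Nv.mono {Γ Γ' : Subgroup SL(2, ℤ)} {f : ℍ → ℂ} (h : Nv Γ f) (e : Γ' ≤ Γ) : Nv Γ' f :=
  fun γ m => h γ (e m)

/-- holomorphic, of some level, with integral expansions at all cusps -/
def RR (O : ValuationSubring ℂ) : Subring (ℍ → ℂ) where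
  carrier := {f | f ∈ Hol ∧ (∃ N, 0 < N ∧ Nv (Gamma N) f) ∧
    ∀ γ : SL(2, ℤ), (fun τ => f (γ • τ)) ∈ Iq O}
  mul_mem' := by
    rintro f g ⟨a, ⟨N, hN, b⟩, c⟩ ⟨a', ⟨M, hM, b'⟩, c'⟩
    exact ⟨mul_mem a a', ⟨_, Nat.mul_pos hN hM, fun γ m τ => congrArg₂ (· * ·)
      (b γ (gamma_dvd (dvd_mul_right _ _) m) τ) (b' γ (gamma_dvd (dvd_mul_left _ _) m) τ)⟩,
      fun γ => mul_mem (c γ) (c' γ)⟩
  add_mem' := by
    rintro f g ⟨a, ⟨N, hN, b⟩, c⟩ ⟨a', ⟨M, hM, b'⟩, c'⟩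
    exact ⟨add_mem a a', ⟨_, Nat.mul_pos hN hM, fun γ m τ => congrArg₂ (· + ·)
      (b γ (gamma_dvd (dvd_mul_right _ _) m) τ) (b' γ (gamma_dvd (dvd_mul_left _ _) m) τ)⟩,
      fun γ => add_mem (c γ) (c' γ)⟩
  one_mem' := ⟨one_mem _, ⟨1, one_pos, fun _ _ _ => rfl⟩, fun _ => one_mem (Iq O)⟩
  zero_mem' := ⟨zero_mem _, ⟨1, one_pos, fun _ _ _ => rfl⟩, fun _ => zero_mem (Iq O)⟩
  neg_mem' := by
    rintro f ⟨a, ⟨N, hN, b⟩, c⟩
    exact ⟨neg_mem a, ⟨N, hN, fun γ m τ => congrArg Neg.neg (b γ m τ)⟩, fun γ => neg_mem (c γ)⟩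

theorem const_RR {c : ℂ} (h : c ∈ O) : (fun _ => c) ∈ RR O :=
  ⟨Hol.algebraMap_mem c, ⟨1, one_pos, fun _ _ _ => rfl⟩, fun _ => const_Iq h⟩

theorem mo_RR {A : M2} (hA : 0 < A.det) {f : ℍ → ℂ} (h : f ∈ RR O) :
    (fun τ => f (mo A τ)) ∈ RR O := by
  obtain ⟨a, ⟨N, hN, b⟩, c⟩ := h
  refine ⟨mo_hol hA a, ⟨N * A.det.natAbs, Nat.mul_pos hN (Int.natAbs_pos.2 hA.ne'),
    fun γ m τ => ?_⟩, fun γ => ?_⟩
  · obtain ⟨δ, m', e⟩ := Pbm.conj A hA N γ m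
    simp only
    rw [← mo_SL, ← mo_mul hA (SL_pos γ), e, mo_mul (SL_pos δ) hA, mo_SL, b δ m']
  · obtain ⟨g, a, d, b, ha, hd, e⟩ := Pbm.hermite _ (pos_mul hA (SL_pos γ))
    have := Iq_tri b ha hd (c g)
    simp only [← mo_SL] at this ⊢
    simp only [← mo_mul hA (SL_pos γ), e, mo_mul (SL_pos g) (tri_pos b ha hd)]
    exact this

theorem SL_RR (γ : SL(2, ℤ)) {f : ℍ → ℂ} (h : f ∈ RR O) : (fun τ => f (γ • τ)) ∈ RR O := by
  simpa only [mo_SL] using mo_RR (SL_pos γ) h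

theorem jf_smul (γ : SL(2, ℤ)) (τ : ℍ) : jf (γ • τ) = jf τ :=
  (jW 1).2.2.1 γ (by rw [Gamma_one_top]; trivial) τ

theorem gq_j : Gq O jf := by
  obtain ⟨s, a, b⟩ := ex_j (l := 1) one_pos
  exact ⟨1, one_pos, _, s, gd_of a, b⟩

theorem jf_RR : jf ∈ RR O := ⟨jf_mem, ⟨1, one_pos, fun γ _ => jf_smul γ⟩, fun γ => by
  simp only [jf_smul]
  exact gq_j.mem⟩

section lev
variable {N : ℕ} [NeZero N]

theorem lev_ex {f : ℍ → ℂ} (h : Nv (Gamma N) f) (γ : SL(2, ℤ)) {n : ℕ} (hn : 0 < n) {s : LS}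
    (hs : ExL n s fun τ => f (γ • τ)) :
    ∃ t, ExL (N * 12) t (fun τ => f (γ • τ)) ∧ sb n hn t = sb (N * 12) pos12 s :=
  ex_lev hn pos12 hs fun τ => by
    have := h _ ((Gamma_normal N).conj_mem _ (gamma_le (T_pow_Gamma (N * 12))) γ) (γ • τ)
    rwa [mul_smul, mul_smul, inv_smul_smul, ← zpow_natCast] at this

theorem exW_smul (f : WW N) (γ : SL(2, ℤ)) :
    ExL (N * 12) (exW N (Irr.pr N γ⁻¹ • f)) fun τ => f.1 (γ • τ) := by
  have := exW_spec (Irr.pr N γ⁻¹ • f)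
  rwa [smul_coe, inv_inv] at this

theorem pr_inv (g : GG N) : ∃ γ : SL(2, ℤ), Irr.pr N γ⁻¹ = g :=
  (pr_surj N g).elim fun γ h => ⟨γ⁻¹, by rwa [inv_inv]⟩

theorem exW_int {f : WW N} {γ : SL(2, ℤ)} (h : (fun τ => f.1 (γ • τ)) ∈ Iq O) :
    exW N (Irr.pr N γ⁻¹ • f) ∈ Int O := by
  obtain ⟨n, hn, s, a, b⟩ := h
  obtain ⟨t, c, d⟩ := lev_ex f.2.2.1 γ hn b
  rw [(exW_smul f γ).unique pos12.ne' c, ← sb_int hn, d, sb_int]
  exact a

theorem exW_gd {f : WW N} {γ : SL(2, ℤ)} (h : Gq O fun τ => f.1 (γ • τ)) :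
    ∃ k, Gd O k (exW N (Irr.pr N γ⁻¹ • f)) := by
  obtain ⟨n, hn, k, s, a, b⟩ := h
  obtain ⟨t, c, d⟩ := lev_ex f.2.2.1 γ hn b
  rw [(exW_smul f γ).unique pos12.ne' c]
  exact Gd.of_sb (d ▸ (gd_sb pos12).2 a)

theorem to_BB {f : ℍ → ℂ} (h : f ∈ RR O) (hN : Nv (Gamma N) f) :
    ∃ w : BB O (GG N) (exW N), w.1.1 = f := by
  have m : f ∈ WW N := ⟨h.1, hN, fun γ => by
    obtain ⟨n, hn, s, -, b⟩ := h.2.2 γ
    exact (lev_ex hN γ hn b).imp fun _ => And.left⟩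
  refine ⟨⟨⟨f, m⟩, fun g => ?_⟩, rfl⟩
  obtain ⟨γ, rfl⟩ := pr_inv g
  exact exW_int (h.2.2 γ)

end lev

/-- **values are integral** -/
theorem val_RR {f : ℍ → ℂ} (h : f ∈ RR O) {τ : ℍ} (hj : jf τ ∈ O) : f τ ∈ O := by
  obtain ⟨N, hN, b⟩ := h.2.1
  have : NeZero N := ⟨hN.ne'⟩
  obtain ⟨w, rfl⟩ := to_BB h b
  exact Iv.val_int w.2 hj

/-- invariant functions are integral polynomials in `j` -/
theorem lip_RR {f : ℍ → ℂ} (h : f ∈ RR O) (hi : Nv ⊤ f) {τ τ' : ℍ} (hj : jf τ ∈ O)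
    (hj' : jf τ' ∈ O) : O.valuation (f τ - f τ') ≤ O.valuation (jf τ - jf τ') := by
  obtain ⟨w, rfl⟩ := to_BB (N := 1) h (hi.mono le_top)
  obtain ⟨P, h1, h2⟩ := Iv.inv_poly w.1 fun g => by
    obtain ⟨γ, rfl⟩ := pr_surj 1 g
    exact Subtype.ext (funext fun τ => hi _ trivial τ)
  rw [h2, h2]
  exact Iv.eval_sub_le (coeff_int (dat O).pole (h1 ▸ BB_one w)) hj hj'

/-- **congruent moduli have congruent level structures** -/
theorem tr_RR {f : ℍ → ℂ} (h : f ∈ RR O) {τ τ' : ℍ} (hj : jf τ ∈ O) (hj' : jf τ' ∈ O)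
    (e : O.valuation (jf τ - jf τ') < 1) :
    ∃ γ : SL(2, ℤ), O.valuation (f τ - f (γ • τ')) < 1 := by
  obtain ⟨N, hN, b⟩ := h.2.1
  have : NeZero N := ⟨hN.ne'⟩
  have m := val_RR h hj
  obtain ⟨w, rfl⟩ := to_BB h b
  obtain ⟨P, hP⟩ := Iv.chi w.1
  have h1 : ∀ i n, (P i).coeff n ∈ O := fun i => coeff_int (dat (N := N) O).pole (by
    rw [← (hP i).1, Iv.map_chi w.2]
    exact Subtype.property _)
  have h2 : ∀ σ : ℍ, ∏ g : GG N, (w.1.1 τ - (g • w.1).1 σ) =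
      ∑ i ∈ Finset.range (Fintype.card (GG N) + 1), (P i).eval (jf σ) * w.1.1 τ ^ i := fun σ => by
    have := eval_eq_sum_range' (p := ∏ g : GG N, (X - C ((g • w.1).1 σ)))
      (n := Fintype.card (GG N) + 1) (by
        rw [natDegree_prod_of_monic _ _ fun g _ => monic_X_sub_C _]
        simp) (w.1.1 τ)
    simpa only [eval_prod, eval_sub, eval_X, eval_C, (hP _).2] using this
  have h3 : O.valuation (∏ g : GG N, (w.1.1 τ - (g • w.1).1 τ')) < 1 := by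
    have z : ∏ g : GG N, (w.1.1 τ - (g • w.1).1 τ) = 0 :=
      Finset.prod_eq_zero (Finset.mem_univ 1) (by rw [one_smul, sub_self])
    rw [← Valuation.map_neg, ← zero_sub, ← z, h2, h2, ← Finset.sum_sub_distrib]
    refine lt_of_le_of_lt (O.valuation.map_sum_le fun i _ => ?_) e
    rw [← sub_mul, mul_comm]
    exact (Iv.mul_le_l (pow_mem m i)).trans (Iv.eval_sub_le (h1 i) hj hj')
  by_contra! hc
  refine h3.not_ge ?_
  rw [map_prod]
  refine Finset.one_le_prod' fun g _ => ?_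
  obtain ⟨γ, rfl⟩ := pr_surj N g
  exact hc γ⁻¹

end Vale.Agent.P004Z.Fin
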