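import Vale.Agent.P004Z.Fin.Cmp

/-! # P004Z, block G6: clearing poles, packing on the curve -/

set_option autoImplicit false
set_option linter.all false

open UpperHalfPlane hiding I
open Polynomial CongruenceSubgroup Filter
open scoped MatrixGroups Classical

noncomputable section

namespace Vale.Agent.P004Z.Fin

open Vale.Agent.P022.H218.L3 Vale.Agent.P004H.H666 Vale.Agent.P022K.F0.Cf

variable {V : AbsoluteValue ℂ ℝ} {p : ℕ}

/-! ### polynomials in `j` -/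

theorem aj_ne {P : ℂ[X]} (h : P ≠ 0) : aeval jM P ≠ 0 := fun e =>
  transc (N := X) (D := 1) isCoprime_one_right (by simp) ⟨P, h, e⟩

theorem od_aj (τ : ℍ) (P : ℂ[X]) : 0 ≤ od τ (aeval jM P) := by
  obtain ⟨f, e, -⟩ := ev_j P
  exact e ▸ od_jm τ f

theorem od_aj_pos {τ : ℍ} {P : ℂ[X]} (h : P ≠ 0) (h0 : P.eval (jf τ) = 0) :
    0 < od τ (aeval jM P) := by
  have n := aj_ne h
  obtain ⟨f, e, hf⟩ := ev_j P
  rw [e] at n ⊢
  exact (od_jm_pos fun z => n (by rw [z, jm, map_zero])).2 ((hf τ).trans h0)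

theorem od_aj_mul (τ : ℍ) {P Q : ℂ[X]} (h : P ≠ 0) (h' : Q ≠ 0) :
    od τ (aeval jM (P * Q)) = od τ (aeval jM P) + od τ (aeval jM Q) := by
  rw [map_mul, od_mul τ (aj_ne h) (aj_ne h')]

/-- integral polynomials -/
def PI (h : Ov V p) : Subring ℂ[X] := (mapRingHom (vO h.na).subtype).range

theorem mem_PI {h : Ov V p} {P : ℂ[X]} : P ∈ PI h ↔ ∀ i, V (P.coeff i) ≤ 1 :=
  (lifts_iff_coeff_lifts (f := (vO h.na).subtype) P).trans
    (forall_congr' fun _ => ⟨fun ⟨a, e⟩ => e ▸ a.2, fun e => ⟨⟨_, e⟩, rfl⟩⟩)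

theorem C_PI {h : Ov V p} {c : ℂ} (e : V c ≤ 1) : C c ∈ PI h := ⟨C ⟨c, e⟩, map_C _⟩

theorem Far.clear (h : Ov V p) {s : Finset ℍ} (hj : ∀ b ∈ s, V (jf b) ≤ 1) {u : ℍ → ℤ}
    (H : Far V s u) : ∃ L ∈ PI h, L ≠ 0 ∧ (∀ b ∈ s, V (L.eval (jf b)) = 1) ∧
      ∀ τ, |u τ| ≤ od τ (aeval jM L) := by
  have k : ∀ t ∈ H.fin.toFinset, ∃ L, L ∈ PI h ∧ L ≠ 0 ∧ (∀ b ∈ s, V (L.eval (jf b)) = 1) ∧
      L.eval t = 0 := fun t ht => by
    obtain ⟨τ, hτ, rfl⟩ := H.fin.mem_toFinset.1 ht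
    have mX : X ∈ PI h := ⟨X, map_X _⟩
    rcases le_or_gt (V (jf τ)) 1 with c | c
    · refine ⟨X - C (jf τ), sub_mem mX (C_PI c), X_sub_C_ne_zero _, fun b hb => ?_, by simp⟩
      rw [eval_sub, eval_X, eval_C]
      exact le_antisymm (h.sub_le (hj b hb) c) (V.map_sub _ _ ▸ H.far τ hτ b hb)
    · have t0 : jf τ ≠ 0 := fun e => by simp [e, zero_lt_one.not_gt] at c
      have c1 : V (jf τ)⁻¹ < 1 := by rw [map_inv₀]; exact inv_lt_one_of_one_lt₀ c
      refine ⟨C (jf τ)⁻¹ * X - 1, sub_mem (mul_mem (C_PI c1.le) mX) (one_mem _), fun e => ?_,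
        fun b hb => ?_, by simp [t0]⟩
      · simpa using congrArg (eval 0) e
      · have : V ((jf τ)⁻¹ * jf b) < V (-1) := by
          rw [V.map_neg, map_one, map_mul]
          exact mul_lt_one_of_nonneg_of_lt_one_left (V.nonneg _) c1 (hj b hb)
        simpa [sub_eq_add_neg] using h.add_eq this
  choose! L h1 h2 h3 h4 using k
  obtain ⟨E, hE⟩ := (H.bd.image Int.natAbs).bddAbove
  have n := Finset.prod_ne_zero_iff.2 h2
  refine ⟨(∏ t ∈ H.fin.toFinset, L t) ^ E, pow_mem (prod_mem h1) E, pow_ne_zero _ n,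
    fun b hb => ?_, fun τ => ?_⟩
  · rw [eval_pow, eval_prod, map_pow, map_prod, Finset.prod_eq_one fun t ht => h3 t ht b hb, one_pow]
  · by_cases e : u τ = 0
    · rw [e, abs_zero]
      exact od_aj _ _
    · have m := H.fin.mem_toFinset.2 ⟨τ, e, rfl⟩
      have := od_aj_pos n (τ := τ) (by rw [eval_prod]; exact Finset.prod_eq_zero m (h4 _ m))
      have h5 : (u τ).natAbs ≤ E := hE ⟨_, ⟨τ, rfl⟩, rfl⟩
      rw [map_pow, od_pow, ← Int.natCast_natAbs]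
      nlinarith [Int.natCast_nonneg E, Int.ofNat_le.2 h5]

theorem fn0 : FN0 := fun N _ δ δ' β s p V H hs h y hy y0 hF => by
  obtain ⟨hj, hM⟩ := h.mp H hs
  obtain ⟨L, h1, -, h2, h3⟩ := hF.clear h hj
  obtain ⟨c, hc⟩ := hM y hy y0 L (mem_PI.1 h1) (fun b hb e => by simpa [e] using h2 b hb) h3
  refine ⟨Real.exp c, fun b hb => ?_⟩
  have o : od b y = 0 := by_contra fun e => by simpa [zero_lt_one.not_ge] using hF.far b e b hb
  have := hc b hb
  rw [h2 b hb, Real.log_one, neg_zero, abs_nonpos_iff, sub_eq_zero] at this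
  rw [← this, Real.exp_log (V.pos fun z => ((ev_eq_zero y0 (reg_iff.2 (Or.inr o.ge))).1 z).ne' o)]

theorem clr_den {R S K : Type*} [CommRing R] [CommRing S] [Field K] (φ : R →+* K) (ψ : S →+* K)
    (h : ∀ a, ∃ P Q, φ Q ≠ 0 ∧ ψ a = φ P / φ Q) (P : S[X]) :
    ∃ (D : R) (Φ : R[X]), φ D ≠ 0 ∧ Φ.map φ = C (φ D) * P.map ψ := by
  induction P using Polynomial.induction_on' with
  | add P Q a b =>
    obtain ⟨D, Φ, a, a'⟩ := a
    obtain ⟨D', Φ', b, b'⟩ := b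
    refine ⟨D * D', C D' * Φ + C D * Φ', by rw [map_mul]; exact mul_ne_zero a b, ?_⟩
    simp only [Polynomial.map_add, Polynomial.map_mul, map_C, a', b', map_mul]
    ring
  | monomial n a =>
    obtain ⟨P, Q, h1, h2⟩ := h a
    exact ⟨Q, monomial n P, h1, by
      rw [map_monomial, map_monomial, C_mul_monomial, h2, mul_div_cancel₀ _ h1]⟩

/-- a primitive equation over `ℂ[j]` -/
theorem ex_phi {N : ℕ} [NeZero N] {x : Mer} (hx : x ∈ MF (Gamma0 N)) : ∃ Φ : ℂ[X][X],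
    eval₂ (aeval jM : ℂ[X] →ₐ[ℂ] Mer).toRingHom x Φ = 0 ∧ ∀ t, Φ.map (evalRingHom t) ≠ 0 := by
  obtain ⟨P, h1, -, h2⟩ := exists_monic (Gamma0 N) hx
  obtain ⟨D, Φ, h3, h4⟩ := clr_den (aeval jM : ℂ[X] →ₐ[ℂ] Mer).toRingHom (algebraMap (MF ⊤) Mer)
    (fun a => MF_top_rep a.2) P
  have n : Φ ≠ 0 := by
    rintro rfl
    exact mul_ne_zero (C_ne_zero.2 h3) (h1.map _).ne_zero (h4.symm.trans (Polynomial.map_zero _))
  refine ⟨Φ.primPart, ?_, fun t e => ?_⟩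
  · have h5 : eval₂ (aeval jM : ℂ[X] →ₐ[ℂ] Mer).toRingHom x Φ = 0 := by
      rw [← eval_map, h4, eval_mul, eval_map_algebraMap, h2, mul_zero]
    rw [Φ.eq_C_content_mul_primPart, eval₂_mul, eval₂_C] at h5
    exact (mul_eq_zero.1 h5).resolve_left (aj_ne (mt content_eq_zero_iff.1 n))
  · refine not_isUnit_X_sub_C t (Φ.isPrimitive_primPart _ ((C_dvd_iff_dvd_coeff _ _).2 fun i =>
      dvd_iff_isRoot.2 ?_))
    simpa using congrArg (coeff · i) e

theorem od_phi {x : Mer} {Φ : ℂ[X][X]}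
    (h : eval₂ (aeval jM : ℂ[X] →ₐ[ℂ] Mer).toRingHom x Φ = 0) {τ : ℍ} (r : Reg τ x) {ξ : ℂ}
    (n : Φ.eval (C ξ) ≠ 0) : od τ (x - algebraMap ℂ Mer ξ) ≤ od τ (aeval jM (Φ.eval (C ξ))) := by
  let φ : ℂ[X] →+* pl τ := (aeval jM : ℂ[X] →ₐ[ℂ] Mer).toRingHom.codRestrict (pl τ) fun P =>
    reg_iff.2 (Or.inr (od_aj τ P))
  obtain ⟨y, hy⟩ := sub_dvd_eval_sub ⟨x, r⟩ (φ (C ξ)) (Φ.map φ)
  have e := congrArg (pl τ).subtype hy
  rw [eval_map, eval_map, eval₂_hom, map_sub, hom_eval₂, map_mul, map_sub] at e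
  change eval₂ (aeval jM : ℂ[X] →ₐ[ℂ] Mer).toRingHom x Φ - aeval jM _ = (x - aeval jM _) * y.1 at e
  rw [h, aeval_C, zero_sub, neg_eq_iff_eq_neg, ← mul_neg] at e
  have n1 := aj_ne n
  rw [e] at n1 ⊢
  rw [od_mul τ (left_ne_zero_of_mul n1) (right_ne_zero_of_mul n1), le_add_iff_nonneg_right]
  exact (reg_iff.1 (neg_mem y.2)).resolve_left (right_ne_zero_of_mul n1)

theorem Ov.bd_phi (h : Ov V p) (Φ : ℂ[X][X]) (r : ℝ) :
    ∃ κ : ℂ, κ ≠ 0 ∧ ∀ ξ, V ξ ≤ r → C κ * Φ.eval (C ξ) ∈ PI h := by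
  obtain ⟨K, hK⟩ : ∃ K : ℝ, ∀ ξ, V ξ ≤ r → ∀ n, V ((Φ.eval (C ξ)).coeff n) ≤ K := by
    induction Φ using Polynomial.induction_on' with
    | add P Q a b =>
      obtain ⟨K, a⟩ := a
      obtain ⟨K', b⟩ := b
      refine ⟨max K K', fun ξ c n => ?_⟩
      rw [eval_add, coeff_add]
      exact (h.na _ _).trans (max_le_max (a ξ c n) (b ξ c n))
    | monomial i a =>
      obtain ⟨K, hK⟩ := (a.finite_range_coeff.image V).bddAbove
      refine ⟨K * r ^ i, fun ξ c n => ?_⟩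
      have := hK ⟨_, ⟨n, rfl⟩, rfl⟩
      rw [eval_monomial, ← C_pow, coeff_mul_C, map_mul, map_pow]
      exact mul_le_mul this (pow_le_pow_left₀ (V.nonneg _) c i) (by positivity)
        ((V.nonneg _).trans this)
  obtain ⟨n, hn⟩ := exists_pow_lt_of_lt_one (inv_pos.2 (lt_max_of_lt_right one_pos : 0 < max K 1)) h.lt
  refine ⟨p ^ n, pow_ne_zero _ (by exact_mod_cast h.prime.ne_zero), fun ξ c => mem_PI.2 fun i => ?_⟩
  rw [coeff_C_mul, map_mul, map_pow]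
  exact (mul_le_mul hn.le ((hK ξ c i).trans (le_max_left K 1)) (V.nonneg _) (by positivity)).trans
    (inv_mul_cancel₀ (by positivity)).le

theorem low_poly {P : ℂ[X]} (h : P ≠ 0) (K : ℝ) : ∃ K', ∀ ξ, (∀ ρ ∈ P.roots, ξ - ρ ≠ 0 ∧
    -Real.log (V (ξ - ρ)) ≤ K) → P.eval ξ ≠ 0 ∧ -Real.log (V (P.eval ξ)) ≤ K' := by
  have k : ∀ m : Multiset ℂ, ∀ ξ, (∀ ρ ∈ m, ξ - ρ ≠ 0 ∧ -Real.log (V (ξ - ρ)) ≤ K) →
      (m.map (ξ - ·)).prod ≠ 0 ∧ -Real.log (V (m.map (ξ - ·)).prod) ≤ m.card * K := fun m ξ => by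
    induction m using Multiset.induction_on with
    | empty => simp
    | cons a m ih =>
      intro c
      obtain ⟨a1, a2⟩ := c a (Multiset.mem_cons_self _ _)
      obtain ⟨b1, b2⟩ := ih fun ρ e => c ρ (Multiset.mem_cons_of_mem e)
      rw [Multiset.map_cons, Multiset.prod_cons, map_mul, Real.log_mul (V.pos a1).ne' (V.pos b1).ne',
        Multiset.card_cons]
      exact ⟨mul_ne_zero a1 b1, by push_cast; linarith⟩
  refine ⟨-Real.log (V P.leadingCoeff) + P.roots.card * K, fun ξ c => ?_⟩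
  obtain ⟨a, b⟩ := k _ ξ c
  have l := leadingCoeff_ne_zero.2 h
  rw [(IsAlgClosed.splits P).eval_eq_prod_roots, map_mul, Real.log_mul (V.pos l).ne' (V.pos a).ne']
  exact ⟨mul_ne_zero l a, by linarith⟩

/-! ### the curve -/

variable {A B : ℂ}

theorem ex_pt (hD : 16 * (4 * A ^ 3 + 27 * B ^ 2) ≠ 0) (x : ℂ) :
    ∃ P : (crv A B).Point, P ≠ 0 ∧ xp P = x := by
  obtain ⟨y, hy⟩ := IsAlgClosed.exists_pow_nat_eq (x ^ 3 + A * x + B) two_pos
  refine ⟨.some x y ((WeierstrassCurve.Affine.equation_iff_nonsingular_of_Δ_ne_zero ?_).1 ?_),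
    WeierstrassCurve.Affine.Point.some_ne_zero _, rfl⟩
  · refine fun e => hD ?_
    simp only [WeierstrassCurve.Δ, WeierstrassCurve.b₂, WeierstrassCurve.b₄, WeierstrassCurve.b₆,
      WeierstrassCurve.b₈] at e
    linear_combination -e
  · simpa [WeierstrassCurve.Affine.equation_iff] using hy

/-- the points near the origin -/
def Nr (h : Ov V p) (A B : ℂ) (r : ℝ) (hr : 1 ≤ r ∧ V A ≤ r ∧ V B ≤ r) :
    AddSubgroup (crv A B).Point := AddSubgroup.ofSub {P | P = 0 ∨ r < V (xp P)} ⟨0, Or.inl rfl⟩ (by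
  rintro P (rfl | hP) Q (rfl | hQ)
  · simp
  · exact Or.inr (by rwa [zero_add, xp_neg])
  · exact Or.inr (by rwa [neg_zero, add_zero])
  obtain ⟨r1, rA, rB⟩ := hr
  by_contra c
  rw [← sub_eq_add_neg, Set.mem_setOf_eq, not_or, not_lt] at c
  have z : ∀ P : (crv A B).Point, r < V (xp P) → zp P = 1 := fun P e => H.zp_one (by
    rintro rfl
    simp [r1.not_gt] at e)
  obtain ⟨μ, μ0, h0, h1, h2⟩ := rl_point two_ne_zero P Q
  rw [z P hP, z Q hQ] at h0 h1 h2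
  rw [H.zp_one c.1] at h1 h2
  generalize xp P = x at *
  generalize xp Q = y at *
  generalize xp (P - Q) = w at *
  have e : (x * y - A) ^ 2 = 4 * B * (x + y) + (2 * (x * y + A) * (x + y) + 4 * B) * w -
      (x - y) ^ 2 * w ^ 2 := mul_left_cancel₀ μ0 (by linear_combination w * h1 - h0 - w ^ 2 * h2)
  obtain ⟨m, hm, m1, m2, m3⟩ : ∃ m, r * m < V x * V y ∧ V (x + y) ≤ m ∧ V (x - y) ≤ m ∧ r ≤ m := by
    rcases le_total (V x) (V y) with k | k
    · exact ⟨V y, by nlinarith, h.add_le k le_rfl, h.sub_le k le_rfl, hQ.le⟩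
    · exact ⟨V x, by nlinarith, h.add_le le_rfl k, h.sub_le le_rfl k, hP.le⟩
  have a0 : V A < V (x * y) := by rw [map_mul]; nlinarith
  have a1 : V (x * y - A) = V x * V y := by
    rw [sub_eq_neg_add, h.add_eq (by rwa [V.map_neg]), map_mul]
  have a2 : V (x * y + A) = V x * V y := by rw [add_comm, h.add_eq a0, map_mul]
  have v2 : V 2 ≤ 1 := by simpa using h.le 2
  have v4 : V (4 * B) ≤ r := by
    rw [map_mul]
    exact (mul_le_of_le_one_left (V.nonneg _) (by simpa using h.le 4)).trans rB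
  generalize V x * V y = t at *
  have t1 : 1 < t := by nlinarith
  have w0 := V.nonneg w
  refine (congrArg V e).not_gt ?_
  rw [map_pow, a1, add_mul]
  refine h.sub_lt (h.add_lt ?_ (h.add_lt ?_ ?_)) ?_
  · rw [map_mul]
    nlinarith [mul_le_mul v4 m1 (V.nonneg _) (by linarith)]
  · rw [map_mul, map_mul, map_mul, a2]
    have := mul_le_mul m1 c.2 w0 (by linarith)
    have := mul_le_mul v2 this (by positivity) zero_le_one
    nlinarith
  · rw [map_mul]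
    nlinarith [mul_le_mul v4 c.2 w0 (by linarith)]
  · rw [← mul_pow, map_pow, map_mul]
    exact pow_lt_pow_left₀ ((mul_le_mul m2 c.2 w0 (by linarith)).trans_lt (by linarith))
      (by positivity) two_ne_zero)

theorem Ov.pack (h : Ov V p) (hD : 16 * (4 * A ^ 3 + 27 * B ^ 2) ≠ 0) (K : ℕ) : ∃ r : ℝ,
    ∀ S : Finset (crv A B).Point, S.card ≤ K →
      ∃ᶠ T in cofinite, ∀ R ∈ S, T - R ≠ 0 ∧ V (xp (T - R)) ≤ r := by
  choose P P0 hP using ex_pt hD
  have inj : Function.Injective fun n : ℕ => P n := fun a b e => by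
    exact_mod_cast (hP a).symm.trans ((congrArg xp e).trans (hP b))
  obtain ⟨r, hr⟩ := (((Finset.range (K + 1) ×ˢ Finset.range (K + 1)).image
    fun i : ℕ × ℕ => V (xp (P i.1 - P i.2))) ∪ {1, V A, V B}).bddAbove
  have h1 : 1 ≤ r ∧ V A ≤ r ∧ V B ≤ r := ⟨hr (by simp), hr (by simp), hr (by simp)⟩
  refine ⟨r, fun S hS => ?_⟩
  obtain ⟨i, hi⟩ : ∃ i : ℕ, ∀ R ∈ S, P i - R ∉ Nr h A B r h1 := by
    by_contra! c
    choose f f1 f2 using c
    obtain ⟨i, hi, j, hj, n, e⟩ := Finset.exists_ne_map_eq_of_card_lt_of_maps_to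
      (s := Finset.range (K + 1)) (by simpa using Nat.lt_succ_of_le hS) fun i _ => f1 i
    have := sub_mem (f2 i) (f2 j)
    rw [e, sub_sub_sub_cancel_right] at this
    exact this.elim (fun z => n (inj (sub_eq_zero.1 z))) (not_lt.2 (hr (Finset.mem_union_left _
      (Finset.mem_image.2 ⟨(i, j), Finset.mem_product.2 ⟨hi, hj⟩, rfl⟩))))
  have inf : (Nr h A B r h1 : Set (crv A B).Point).Infinite :=
    Set.Infinite.of_image (fun W => V (xp W)) (Set.infinite_of_not_bddAbove fun ⟨c, hc⟩ => by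
      obtain ⟨n, hn⟩ := pow_unbounded_of_one_lt (max c r) ((one_lt_inv₀ h.pos).2 h.lt)
      rw [← map_inv₀, ← map_pow, ← hP (_ ^ n), max_lt_iff] at hn
      exact hn.1.not_ge (hc ⟨_, Or.inr hn.2, rfl⟩))
  refine frequently_cofinite_iff_infinite.2 ((inf.image (add_right_injective (P i)).injOn).mono ?_)
  rintro _ ⟨W, hW, rfl⟩ R hR
  have : P i + W - R ∉ Nr h A B r h1 := fun m => hi R hR (by
    have := sub_mem m hW
    rwa [add_sub_right_comm, add_sub_cancel_right] at this)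
  exact (not_or.1 this).imp_right not_lt.1

end Vale.Agent.P004Z.Fin
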