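import Vale.Agent.P004Z.Fin.Typ

/-! # P004Z, block G6: the maximum principle on a component -/

set_option autoImplicit false
set_option linter.all false

open UpperHalfPlane hiding I
open Matrix CongruenceSubgroup
open scoped MatrixGroups ModularForm Manifold Classical Polynomial

noncomputable section

namespace Vale.Agent.P004Z.Fin

open Vale.Agent.P022 Vale.Agent.P022.H218.L3 Vale.Agent.P022.H231.L3 Vale.Agent.P022.H236.L3
  Vale.Agent.P022.H542.L3 Vale.Agent.P022D.Irr Vale.Agent.P027M.M Vale.Agent.P004M.D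
  Vale.Agent.P022D Vale.Agent.P022.H236
open Vale.Agent.P022K.F0.Cf (od ev Reg jm)

variable {O : ValuationSubring ℂ} {N : ℕ} [NeZero N]

/-- the decomposition group -/
abbrev DD (O : ValuationSubring ℂ) (N : ℕ) [NeZero N] : Subgroup SL(2, ℤ) :=
  (stab (GG N) (rho O (GG N) (exW N))).comap (Irr.pr N)

theorem not_bor {l : ℕ} (hu' : (l : ℂ)⁻¹ ∈ O) (hl : l.Prime) (hd : l ∣ N) :
    ∃ γ ∈ DD O N, ¬ (l : ℤ) ∣ γ 1 0 := by
  by_contra hc
  push Not at hc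
  obtain ⟨c, rfl⟩ := hd
  have c0 : 0 < c := Nat.pos_of_mul_pos_left (NeZero.pos (l * c))
  have c1 : 0 < c * 12 := by omega
  have n1 : ¬ (l : ℤ) ∣ 1 := (Nat.prime_iff_prime_int.1 hl).not_dvd_one
  have z0 : NZ l ![0, 1] := fun h => n1 (h 1)
  have z1 : NZ l ![1, 0] := fun h => n1 (h 0)
  have z2 : NZ l (![0, 1] - ![1, 0]) := fun h => n1 (by simpa using h 1)
  have z3 : NZ l (![0, 1] + ![1, 0]) := fun h => n1 (by simpa using h 1)
  have hW : IsMF (Gamma (l * c)) 2 (Wf l ![0, 1] ![1, 0]) :=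
    (Pre.Wf_isMF hl.pos z0 z1).mono (gamma_le.trans (Gamma_le l l dvd_rfl))
  have hW6 : IsMF (Gamma (l * c)) 12 (Wf l ![0, 1] ![1, 0] ^ 6) := hW.pow 6
  have m := div_mem_WW (isMF_disc.mono le_top) hW6
    fun τ => pow_ne_zero _ (Wf_ne hl.pos z0 z1 z2 z3 τ)
  obtain ⟨d, d0, d1⟩ := ex_disc hl.pos
  have key : ∀ γ : SL(2, ℤ), ∃ s, Good l (l - (6 : ℕ) * (A.eo (P027M.M.red l (![0, 1] ᵥ* (γ : M2)))
      (P027M.M.red l (![1, 0] ᵥ* (γ : M2))) : ℕ)) s ∧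
      exW (l * c) (Irr.pr (l * c) γ⁻¹ • ⟨_, m⟩) = sb (c * 12) c1 s := by
    intro γ
    have g1 := (sa4 l hl.pos).2 _ _ (z0.vecMul γ) (z1.vecMul γ)
      (by rw [← sub_vecMul]; exact z2.vecMul γ) (by rw [← add_vecMul]; exact z3.vecMul γ)
    have g2 := (sa3 l hl.pos _ _ (z0.vecMul γ) (z1.vecMul γ)).2
    refine ⟨_, d0.div (g1.pow 6), ?_⟩
    rw [map_div₀]
    refine exW_div (k := 12) m γ ?_ ?_ ((map_ne_zero _).2 (g1.pow 6).ne)
    · rw [isMF_disc.slash γ (Subgroup.mem_top _), mul_assoc]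
      exact exL_period c1 hl.pos.ne' d1
    · have e : (Wf l ![0, 1] ![1, 0] ^ 6) ∣[(12 : ℤ)] γ =
          Wf l (![0, 1] ᵥ* (γ : M2)) (![1, 0] ᵥ* (γ : M2)) ^ 6 := by
        have := prod_slash_SL (k := 2) γ (fun _ : Fin 6 => Wf l ![0, 1] ![1, 0]) Finset.univ
        simpa [Wf_slash] using this
      rw [e, mul_assoc]
      exact exL_period c1 hl.pos.ne' (g2.pow 6)
  have mB : (⟨_, m⟩ : WW (l * c)) ∈ BB O (GG (l * c)) (exW (l * c)) := fun g => by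
    obtain ⟨γ, rfl⟩ := pr_surj _ g
    obtain ⟨s, h1, h2⟩ := key γ⁻¹
    rw [inv_inv] at h2
    rw [h2]
    exact (good_red hl.pos hu' c1 h1).1
  refine dec' (dat O) ⟨_, mB⟩ fun g hg => ?_
  obtain ⟨γ, rfl⟩ := pr_surj _ g
  obtain ⟨s, h1, h2⟩ := key γ⁻¹
  rw [inv_inv] at h2
  have h3 := hc γ⁻¹ (Subgroup.inv_mem _ hg)
  have h4 : A.eo (P027M.M.red l (![0, 1] ᵥ* ((γ⁻¹ : SL(2, ℤ)) : M2)))
      (P027M.M.red l (![1, 0] ᵥ* ((γ⁻¹ : SL(2, ℤ)) : M2))) = 0 := by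
    refine Nat.min_eq_zero_iff.2 (Or.inl (A.ab_eq_zero.2 ?_))
    rw [P027M.M.red, vm0]
    refine (ZMod.intCast_zmod_eq_zero_iff_dvd _ _).2 ?_
    simpa only [cons_val_zero, cons_val_one, zero_mul, one_mul, zero_add] using h3
  rw [h4] at h1
  obtain ⟨m1, m2⟩ := good_red hl.pos hu' c1 h1
  refine ⟨_, ?_, Eq.trans (congrArg HahnSeries.orderTop ?_) m2⟩
  · have := hl.pos
    simp only [Nat.cast_zero, mul_zero, sub_zero]
    positivity
  · rw [rho_apply]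
    congr 1
    exact Subtype.ext h2

theorem T_DD : ModularGroup.T ∈ DD O N :=
  inv_mem_iff.1 (T_mem : ModularGroup.T⁻¹ ∈ DD O N)

theorem rho_zero (w : BB O (GG N) (exW N)) (g : GG N) {c : ℂ} (hc : O.valuation c < 1) {t : LS}
    (ht : t ∈ Int O) (e : exW N (g • w.1) = HahnSeries.C c * t) :
    rho O (GG N) (exW N) (g • w) = 0 := by
  obtain ⟨h2, h3⟩ := small_mul hc ht
  rw [← h3, rho_apply]
  congr 1
  exact Subtype.ext e

theorem exW_sm {w : WW N} {γ : SL(2, ℤ)} {c : ℂ} (c0 : c ≠ 0) {u : ℍ → ℂ} (hu : u ∈ Iq O)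
    (e : ∀ τ, w.1 (γ • τ) = c * u τ) :
    ∃ t ∈ Int O, exW N (Irr.pr N γ⁻¹ • w) = HahnSeries.C c * t := by
  refine ⟨_, exW_int (f := w * cst N c⁻¹) (γ := γ) (Iq_sm (one_mem _) hu fun τ => ?_), ?_⟩
  · change w.1 (γ • τ) * c⁻¹ = _
    rw [e, one_mul, mul_comm, inv_mul_cancel_left₀ c0]
  · rw [smul_mul', (dat O).fix, map_mul, (dat O).const, mul_left_comm, ← map_mul,
      mul_inv_cancel₀ c0, map_one, mul_one]

theorem exL_of {n : ℕ} (hn : n ≠ 0) {s : LS} {f : ℍ → ℂ} {hf : f ∈ Hol} (h : ExM n s (inc f hf)) :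
    ExL n s f := by
  obtain ⟨g, k, hg, hk, G, H, h0, hG, hH, e, rfl⟩ := h
  rw [eq_div_iff (inc_ne_zero hk h0), ← inc_mul] at e
  have H0 := hH.ne_zero hk h0
  refine (hG.div hn hH H0).congr ((hH.inv hn H0).1.mono fun τ z => ?_)
  rw [Pi.div_apply, ← inc_injective _ _ e, Pi.mul_apply, mul_div_cancel_right₀ _ z]

theorem hol_MF (f : Hol) (h : jm f ∈ MF (Gamma0 N)) : ∃ w : WW N, w.1 = f.1 ∧
    Nv (Gamma0 N) f.1 ∧ ∀ g : GG N, Irr.Rat O (exW N (g • w)) := by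
  change inc f.1 f.2 ∈ _ at h
  have h1 : Nv (Gamma0 N) f.1 := fun γ m τ => congrFun (inc_injective (comp_mem γ f.2) f.2
    ((Exp.act_inc γ f.2).symm.trans (act_eq_self h (inv_mem m)))) τ
  have le : Gamma N ≤ Gamma0 N := fun γ m => Gamma0_mem.2 (Gamma_mem.1 m).2.2.1
  have h2 : ∀ γ : SL(2, ℤ), ∃ s, ExL (N * 12) s (fun τ => f.1 (γ • τ)) ∧ Irr.Rat O s := fun γ => by
    obtain ⟨s, a, b⟩ := rat_MF (O := O) ⟨pos12 (N := N), N * 3, by ring⟩ (act_mem γ⁻¹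
      (fun δ m => le (gamma_le ((Gamma_normal _).conj_mem' δ m γ⁻¹))) h)
    exact ⟨s, exL_of pos12.ne' (by rw [← Exp.act_inc γ f.2]; exact a), b⟩
  have m : f.1 ∈ WW N := ⟨f.2, h1.mono le, fun γ => (h2 γ).imp fun _ => And.left⟩
  refine ⟨⟨f.1, m⟩, rfl, h1, fun g => ?_⟩
  obtain ⟨γ, rfl⟩ := pr_inv g
  obtain ⟨s, a, b⟩ := h2 γ
  rwa [(exW_smul ⟨f.1, m⟩ γ).unique pos12.ne' a]

variable {V : AbsoluteValue ℂ ℝ} {p : ℕ}

/-- `s` is a unit exactly on one component -/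
structure Cp (h : Ov V p) (N : ℕ) [NeZero N] (s : ℍ → ℂ) (γ₀ : SL(2, ℤ)) : Prop where
  mem : s ∈ RR (vO h.na)
  inv : Nv (Gamma0 N) s
  gq : Gq (vO h.na) fun τ => s (γ₀ • τ)
  alt : ∀ γ, (∃ a ∈ Gamma0 N, ∃ d ∈ DD (vO h.na) N, γ = a * γ₀ * d) ∨
    ∃ u ∈ Iq (vO h.na), ∀ τ, s (γ • τ) = p * u τ

theorem G_le : Gamma N ≤ Gamma0 N := fun γ m => Gamma0_mem.2 (Gamma_mem.1 m).2.2.1

theorem Cp.nrm {h : Ov V p} {s : ℍ → ℂ} {γ₀ : SL(2, ℤ)} (H : Cp h N s γ₀) (f : Hol) (f0 : f ≠ 0)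
    (hf : jm f ∈ MF (Gamma0 N)) : ∃ (c : ℂ) (n : ℕ) (w : BB (vO h.na) (GG N) (exW N)),
      (∀ τ, w.1.1 τ = c * f.1 τ * s τ ^ n) ∧
      rho (vO h.na) (GG N) (exW N) (Irr.pr N γ₀⁻¹ • w) ≠ 0 := by
  obtain ⟨w, rfl', hi, hr⟩ := hol_MF (O := vO h.na) f hf
  obtain ⟨s, rfl⟩ := to_BB H.mem (H.inv.mono G_le)
  have D := dat (N := N) (vO h.na)
  have p0 : (p : ℂ) ≠ 0 := by exact_mod_cast h.prime.ne_zero
  have hb : ∃ a, a ≠ 0 ∧ w * cst N a ∈ BB (vO h.na) (GG N) (exW N) := by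
    rcases D.bnd vO_arch w hr with m | ⟨c, -, m, g, e⟩
    · exact ⟨1, one_ne_zero, by rwa [map_one, mul_one]⟩
    · refine ⟨c, ?_, m⟩
      rintro rfl
      exact e (by rw [show (⟨_, m⟩ : BB (vO h.na) (GG N) (exW N)) = 0 from
        Subtype.ext (by simp), smul_zero, map_zero])
  obtain ⟨a, a0, ha⟩ := hb
  have n0 : exW N (Irr.pr N γ₀⁻¹ • w) ≠ 0 :=
    (exW_smul w γ₀).ne_zero (comp_mem γ₀ w.2.1) fun z => f0 (Subtype.ext (funext fun τ => by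
      have := congrFun z (γ₀⁻¹ • τ)
      rwa [smul_inv_smul, rfl'] at this))
  obtain ⟨b, b0, k, hk⟩ : ∃ b, b ≠ 0 ∧ ∃ k, Ld k b (exW N (Irr.pr N γ₀⁻¹ • w)) :=
    ⟨_, HahnSeries.coeff_order_eq_zero.not.2 n0, _,
      fun _ => HahnSeries.coeff_eq_zero_of_lt_order, rfl⟩
  obtain ⟨l, -, u, u1, hl⟩ := exW_gd (f := s.1) H.gq
  obtain ⟨n, hn⟩ := exists_pow_lt_of_lt_one (V.pos (mul_ne_zero a0 b0)) h.lt
  have key : ∀ c, w * s.1 ^ n * cst N c ∈ BB (vO h.na) (GG N) (exW N) → V (b * c) ≤ 1 :=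
    fun c m => by
    have := mem_Int.1 (m (Irr.pr N γ₀⁻¹)) (k + n * l + 0)
    rw [smul_mul', smul_mul', smul_pow', D.fix, map_mul, map_mul, map_pow, D.const,
      ((hk.mul (hl.pow n)).mul (ld_C c)).2, mem_vO, map_mul, map_mul, map_pow, vO_one.1 u1,
      one_pow, mul_one] at this
    rwa [map_mul]
  have r : ∀ g : GG N, Irr.Rat (vO h.na) (exW N (g • (w * s.1 ^ n * cst N (b * p)⁻¹))) := fun g => by
    rw [smul_mul', smul_mul', smul_pow', D.fix, map_mul, map_mul, map_pow, D.const]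
    exact ((hr g).mul ((Rat.of_int (s.2 g)).pow n)).mul (Rat.const _)
  obtain ⟨c, m, g, e⟩ : ∃ c, ∃ m : w * s.1 ^ n * cst N c ∈ BB (vO h.na) (GG N) (exW N),
      ∃ g : GG N, rho (vO h.na) (GG N) (exW N) (g • ⟨_, m⟩) ≠ 0 := by
    rcases D.bnd vO_arch _ r with m | ⟨c, -, m⟩
    · have := key _ m
      rw [mul_inv, mul_inv_cancel_left₀ b0, map_inv₀, inv_le_one₀ h.pos] at this
      exact absurd h.lt this.not_gt
    · rw [mul_assoc, ← map_mul] at m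
      exact ⟨_, m⟩
  refine ⟨c, n, ⟨_, m⟩, fun τ => ?_, fun z => e ?_⟩
  · change w.1 τ * s.1.1 τ ^ n * c = _
    rw [rfl']
    ring
  obtain ⟨γ, rfl⟩ := pr_inv g
  rcases H.alt γ with ⟨x, hx, d, hd, rfl⟩ | ⟨u, hu, hs⟩
  · have : Irr.pr N x⁻¹ • (⟨_, m⟩ : BB (vO h.na) (GG N) (exW N)) = ⟨_, m⟩ :=
      Subtype.ext (Subtype.ext (funext fun τ => by
        change w.1 (x⁻¹⁻¹ • τ) * s.1.1 (x⁻¹⁻¹ • τ) ^ n * c = w.1 τ * s.1.1 τ ^ n * c
        rw [inv_inv, rfl', hi x hx, H.inv x hx]))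
    rw [_root_.mul_inv_rev, _root_.mul_inv_rev, map_mul, map_mul, mul_smul, mul_smul, this]
    exact mem_stab.1 (Subgroup.mem_comap.1 (inv_mem hd)) _ z
  · obtain ⟨t, ht, e2⟩ := exW_sm (w := s.1) p0 hu hs
    refine rho_zero _ _ (c := p ^ n * c / a) (vO_lt.2 ?_)
      (mul_mem (ha (Irr.pr N γ⁻¹)) (pow_mem ht n)) ?_
    · rw [map_div₀, map_mul, map_pow, div_lt_one (V.pos a0)]
      have := key c m
      rw [map_mul] at this hn
      nlinarith [V.pos a0, V.pos b0, V.nonneg c, pow_pos h.pos n]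
    · change exW N (_ • (w * s.1 ^ n * cst N c)) = _
      rw [smul_mul', smul_mul', smul_mul', smul_pow', D.fix, D.fix, map_mul, map_mul, map_mul,
        map_pow, D.const, D.const, e2, map_div₀, map_mul, map_pow]
      have : (HahnSeries.C a : LS) ≠ 0 := (map_ne_zero _).2 a0
      field_simp
      ring

/-- the maximum principle at the points of `s` -/
def Mp (V : AbsoluteValue ℂ ℝ) (N : ℕ) (s : Finset ℍ) : Prop :=
  ∀ h ∈ MF (Gamma0 N), h ≠ 0 → ∀ P : ℂ[X], (∀ i, V (P.coeff i) ≤ 1) →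
    (∀ b ∈ s, P.eval (jf b) ≠ 0) → (∀ τ, |od τ h| ≤ od τ (Polynomial.aeval jM P)) →
    ∃ c : ℝ, ∀ b ∈ s, |Real.log (V (ev b h)) - c| ≤ -Real.log (V (P.eval (jf b)))

theorem ev_j (P : ℂ[X]) : ∃ f : Hol, Polynomial.aeval jM P = jm f ∧ ∀ τ, f.1 τ = P.eval (jf τ) :=
  (aeval_jM P).elim fun m e => ⟨⟨_, m⟩, e, fun _ => rfl⟩

theorem aj_mem (Γ : Subgroup SL(2, ℤ)) (P : ℂ[X]) : Polynomial.aeval jM P ∈ MF Γ :=
  MF_mono le_top (MF_top ▸ IntermediateField.algebra_adjoin_le_adjoin _ _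
    (Polynomial.aeval_mem_adjoin_singleton _ _))

open P022K.F0.Cf in
theorem Cp.mp {h : Ov V p} {s : ℍ → ℂ} {γ₀ : SL(2, ℤ)} (H : Cp h N s γ₀) {S : Finset ℍ}
    (hj : ∀ b ∈ S, V (jf b) ≤ 1) (hs : ∀ b ∈ S, V (s b) = 1) : Mp V N S := by
  intro y hy y0 P hP hb ho
  rcases S.eq_empty_or_nonempty with rfl | ⟨b₀, hb₀⟩
  · exact ⟨0, by simp⟩
  have mP := aj_mem (Gamma0 N) P
  obtain ⟨Q, e, hQ⟩ := ev_j P
  rw [e] at ho mP
  have Q0 : jm Q ≠ 0 := jm_ne' (τ := b₀) (hQ _ ▸ hb _ hb₀)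
  obtain ⟨f, e1, h1⟩ := ex_hol (y := y * jm Q) fun τ => reg_iff.2 (Or.inr (by
    rw [od_mul τ y0 Q0]
    linarith [neg_abs_le (od τ y), ho τ]))
  obtain ⟨f', e2, h2⟩ := ex_hol (y := y⁻¹ * jm Q) fun τ => reg_iff.2 (Or.inr (by
    rw [od_mul τ (inv_ne_zero y0) Q0, od_inv]
    linarith [le_abs_self (od τ y), ho τ]))
  obtain ⟨c, n, w, w1, w2⟩ := H.nrm f (fun z => mul_ne_zero y0 Q0 (by rw [e1, z, jm, map_zero]))
    (e1 ▸ mul_mem hy mP)
  obtain ⟨c', n', w', w1', w2'⟩ := H.nrm f'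
    (fun z => mul_ne_zero (inv_ne_zero y0) Q0 (by rw [e2, z, jm, map_zero]))
    (e2 ▸ mul_mem (inv_mem hy) mP)
  have e3 : f * f' = Q * Q := jm_inj (by
    simp only [jm, map_mul] at e1 e2 ⊢
    rw [← e1, ← e2, mul_mul_mul_comm, mul_inv_cancel₀ y0, one_mul])
  have cc : 1 ≤ V (c * c') := by
    by_contra! z
    have m : Q.1 ∈ RR (vO h.na) := by
      rw [funext hQ]
      simp only [Polynomial.eval_eq_sum_range]
      convert sum_mem fun i (_ : i ∈ Finset.range (P.natDegree + 1)) =>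
        mul_mem (const_RR (O := vO h.na) (hP i)) (pow_mem jf_RR i) using 1
      funext τ
      simp
    have c0 : c * c' ≠ 0 := fun z => by
      rcases mul_eq_zero.1 z with rfl | rfl
      · exact w2 (by rw [show w = 0 from Subtype.ext (Subtype.ext (funext fun τ => by
          simpa using w1 τ)), smul_zero, map_zero])
      · exact w2' (by rw [show w' = 0 from Subtype.ext (Subtype.ext (funext fun τ => by
          simpa using w1' τ)), smul_zero, map_zero])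
    obtain ⟨t, ht, e4⟩ := exW_sm (w := (w * w').1) c0
      ((mul_mem (mul_mem m m) (pow_mem H.mem (n + n'))).2.2 γ₀) fun τ => by
        have := congrFun (congrArg Subtype.val e3) (γ₀ • τ)
        change f.1 _ * f'.1 _ = Q.1 _ * Q.1 _ at this
        change w.1.1 _ * w'.1.1 _ = _
        simp only [w1, w1', Pi.mul_apply, Pi.pow_apply, ← this]
        ring
    have := rho_zero (w * w') _ (vO_lt.2 z) ht e4
    rw [smul_mul', map_mul] at this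
    exact mul_ne_zero w2 w2' this
  have c0 : 0 < V c := V.pos fun z => by simp [z, zero_lt_one.not_ge] at cc
  refine ⟨-Real.log (V c), fun b hbS => ?_⟩
  have q0 : Q.1 b ≠ 0 := hQ _ ▸ hb _ hbS
  have o : od b y = 0 := abs_nonpos_iff.1 ((ho b).trans (od_unit q0).le)
  have r1 : Reg b y := reg_iff.2 (Or.inr o.ge)
  have r2 : Reg b y⁻¹ := reg_iff.2 (Or.inr (by rw [od_inv, o, neg_zero]))
  have v0 : ev b y ≠ 0 := fun z => ((ev_eq_zero y0 r1).1 z).ne' o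
  have v1 : ev b y * ev b y⁻¹ = 1 := by
    rw [← ev_mul r1 r2, mul_inv_cancel₀ y0]
    simpa using ev_const b 1
  have a1 : V (w.1.1 b) ≤ 1 := Iv.val_int w.2 (hj b hbS)
  have a2 : V (w'.1.1 b) ≤ 1 := Iv.val_int w'.2 (hj b hbS)
  rw [w1, h1, ev_mul r1 (reg_jm _ _), ev_jm] at a1
  rw [w1', h2, ev_mul r2 (reg_jm _ _), ev_jm, eq_inv_of_mul_eq_one_right v1] at a2
  simp only [map_mul, map_pow, hs b hbS, one_pow, mul_one, map_inv₀] at a1 a2 cc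
  rw [← hQ]
  have x0 := V.pos v0
  have x1 := V.pos q0
  have c1 : 0 < V c' := (mul_pos_iff_of_pos_left c0).1 (zero_lt_one.trans_le cc)
  have l1 := Real.log_nonpos (by positivity) a1
  have l2 := Real.log_nonpos (by positivity) a2
  have l3 := Real.log_nonneg cc
  rw [Real.log_mul c0.ne' (by positivity), Real.log_mul x0.ne' x1.ne'] at l1
  rw [Real.log_mul c1.ne' (by positivity), Real.log_mul (by positivity) x1.ne', Real.log_inv] at l2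
  rw [Real.log_mul c0.ne' c1.ne'] at l3
  rw [abs_le]
  constructor <;> linarith

end Vale.Agent.P004Z.Fin
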