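import Vale.Agent.P004Z.Fin.Int
import Vale.Agent.P004Z.Hd.Dv

/-! # P004Z, block G6: canonical subgroups -/

set_option autoImplicit false
set_option linter.all false

open UpperHalfPlane hiding I
open Polynomial CongruenceSubgroup
open scoped MatrixGroups ModularForm Manifold Classical

noncomputable section

namespace Vale.Agent.P004Z.Fin

open Vale.Agent.P022.H218.L3 Vale.Agent.P022.H231.L3 Vale.Agent.P022.H236.L3
  Vale.Agent.P022.H542.L3 Vale.Agent.P022D.Irr Vale.Agent.P027M.M Vale.Agent.P004M.D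
  Vale.Agent.P022D

variable {O : ValuationSubring ℂ} {q : ℕ}

/-- `τ ↦ q τ` -/
def dg (q : ℕ) : M2 := !![(q : ℤ), 0; 0, 1]

theorem dg_det : (dg q).det = q := by simp [dg, Matrix.det_fin_two_of]

theorem dg_pos (hq : 0 < q) : 0 < (dg q).det := by
  rw [dg_det]
  exact_mod_cast hq

theorem dg_coe (hq : 0 < q) (τ : ℍ) : (mo (dg q) τ : ℂ) = q * τ := by
  rw [mo_coe (dg_pos hq), den]
  simp [dg]

theorem su_sc (hq : 0 < q) (τ : ℍ) : su !![(q : ℤ), 0; 0, q] τ = q ^ 12 := by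
  rw [su_fix (mo_of (tri_pos 0 hq hq) (by simp [den, mul_comm]))]
  simp [den]

/-- the function of the second component -/
def sv (q : ℕ) (τ : ℍ) : ℂ := q ^ 12 / su (dg q) τ

theorem sv_RR (hq : 0 < q) : sv q ∈ RR O := by
  have h := tri_pos (a := 1) 0 one_pos hq
  convert mo_RR (dg_pos hq) (su_RR (O := O) h) using 1
  funext τ
  rw [sv, div_eq_iff (su_ne (dg_pos hq) τ), ← su_mul h (dg_pos hq), ← su_sc hq τ]
  congr 1
  simp [dg]

theorem dg_cusp (hq : 0 < q) (γ : SL(2, ℤ)) : ∃ (a d : ℕ) (u : ℍ → ℂ), a * d = q ∧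
    (a : ℤ) ∣ γ 1 0 ∧ (∀ m : ℤ, m ∣ q → m ∣ γ 1 0 → m ∣ a) ∧ Gq O u ∧ Gq O u⁻¹ ∧
    (∀ τ, su (dg q) (γ • τ) = d ^ 12 * u τ) ∧ ∀ τ, sv q (γ • τ) = a ^ 12 * u⁻¹ τ := by
  obtain ⟨g, a, d, b, u, e, hd, h1, h2, h3⟩ := su_cusp (O := O) (dg_pos hq) γ
  have e0 : (q : ℤ) * γ 0 0 = g 0 0 * a := by
    simpa [dg, Matrix.mul_apply, Fin.sum_univ_two] using congrFun (congrFun e 0) 0
  have e1 : γ 1 0 = g 1 0 * a := by
    simpa [dg, Matrix.mul_apply, Fin.sum_univ_two] using congrFun (congrFun e 1) 0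
  have e2 : a * d = q := by
    have := congrArg Matrix.det e
    rw [Matrix.det_mul, Matrix.det_mul, γ.det_coe, g.det_coe, dg_det, Matrix.det_fin_two_of] at this
    exact_mod_cast (by linarith : (a : ℤ) * d = q)
  refine ⟨a, d, u, e2, ⟨_, e1.trans (mul_comm _ _)⟩, fun m h h' => ?_, h1, h2, h3, fun τ => ?_⟩
  · rw [show (a : ℤ) = g 1 1 * (q * γ 0 0) - g 0 1 * γ 1 0 by
      rw [e0, e1]; linear_combination -a * det2 g]
    exact dvd_sub ((h.mul_right _).mul_left _) (h'.mul_left _)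
  · have : (d : ℂ) ≠ 0 := by exact_mod_cast hd.ne'
    rw [sv, h3, ← e2, Pi.inv_apply]
    push_cast
    rw [mul_pow, mul_comm ((a : ℂ) ^ 12), mul_div_mul_left _ _ (pow_ne_zero _ this), div_eq_mul_inv]

theorem dg_conj {γ : SL(2, ℤ)} (h : γ ∈ Gamma0 q) : ∃ g : SL(2, ℤ), dg q * γ = g * dg q := by
  obtain ⟨c, hc⟩ := Hd.g0_dvd.1 h
  refine ⟨Hd.mk (γ 0 0) (q * γ 0 1) c (γ 1 1) (by linear_combination det2 γ + γ 0 1 * hc), ?_⟩
  ext i j
  fin_cases i <;> fin_cases j <;> simp [dg, Hd.mk, Matrix.mul_apply, Fin.sum_univ_two, hc, mul_comm]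

theorem nv_su (hq : 0 < q) : Nv (Gamma0 q) (su (dg q)) := fun γ h τ => by
  obtain ⟨g, e⟩ := dg_conj h
  rw [← su_r (dg_pos hq), e, su_l (dg_pos hq)]

theorem nv_j (hq : 0 < q) : Nv (Gamma0 q) fun τ => jf (mo (dg q) τ) := fun γ h τ => by
  obtain ⟨g, e⟩ := dg_conj h
  simp only
  rw [← mo_SL, ← mo_mul (dg_pos hq) (SL_pos γ), e, mo_mul (SL_pos g) (dg_pos hq)]
  exact (congrArg jf (mo_SL g _)).trans (jf_smul g _)

theorem RR_div {f : ℍ → ℂ} (h : f ∈ RR O) (c : ℂ)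
    (hc : ∀ γ : SL(2, ℤ), (fun τ => c * f (γ • τ)) ∈ Iq O) : (fun τ => c * f τ) ∈ RR O :=
  ⟨mdifferentiable_const.mul h.1, h.2.1.imp fun _ e => ⟨e.1, fun γ m τ => congrArg (c * ·)
    (e.2 γ m τ)⟩, hc⟩

theorem Iq_sm {c : ℂ} (hc : c ∈ O) {f g : ℍ → ℂ} (h : f ∈ Iq O) (e : ∀ τ, g τ = c * f τ) :
    g ∈ Iq O := by
  rw [funext e]
  exact mul_mem (const_Iq hc) h

theorem cusp_p {p : ℕ} (hp : p.Prime) {γ : SL(2, ℤ)} (h : γ ∉ Gamma0 p) :
    ∃ u ∈ Iq O, ∀ τ, su (dg p) (γ • τ) = p ^ 12 * u τ := by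
  obtain ⟨a, d, u, e, h1, -, h2, -, h3, -⟩ := dg_cusp (O := O) hp.pos γ
  rcases (Nat.dvd_prime hp).1 (Dvd.intro _ e) with rfl | rfl
  · obtain rfl : d = p := (one_mul d).symm.trans e
    exact ⟨u, h2.mem, h3⟩
  · exact absurd (Hd.g0_dvd.2 h1) h

/-! ### values -/

variable {V : AbsoluteValue ℂ ℝ} {p : ℕ}

theorem Ov.le (h : Ov V p) (n : ℤ) : V n ≤ 1 := h.na.apply_intCast_le_one

theorem Ov.pos (h : Ov V p) : 0 < V p := V.pos (by exact_mod_cast h.prime.ne_zero)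

theorem Ov.of_dvd (h : Ov V p) {n : ℤ} (d : (p : ℤ) ∣ n) : V n < 1 := by
  obtain ⟨k, rfl⟩ := d
  rw [Int.cast_mul, map_mul, Int.cast_natCast]
  exact mul_lt_one_of_nonneg_of_lt_one_left (V.nonneg _) h.lt (h.le k)

theorem Ov.add_lt (h : Ov V p) {x y : ℂ} {r : ℝ} (a : V x < r) (b : V y < r) : V (x + y) < r :=
  (h.na x y).trans_lt (max_lt a b)

theorem Ov.sub_lt (h : Ov V p) {x y : ℂ} {r : ℝ} (a : V x < r) (b : V y < r) : V (x - y) < r := by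
  rw [sub_eq_add_neg]
  exact h.add_lt a (by rwa [V.map_neg])

theorem Ov.add_le (h : Ov V p) {x y : ℂ} {r : ℝ} (a : V x ≤ r) (b : V y ≤ r) : V (x + y) ≤ r :=
  (h.na x y).trans (max_le a b)

theorem Ov.sub_le (h : Ov V p) {x y : ℂ} {r : ℝ} (a : V x ≤ r) (b : V y ≤ r) : V (x - y) ≤ r := by
  rw [sub_eq_add_neg]
  exact h.add_le a (by rwa [V.map_neg])

theorem Ov.add_eq (h : Ov V p) {x y : ℂ} (a : V x < V y) : V (x + y) = V y :=
  le_antisymm (h.add_le a.le le_rfl) (not_lt.1 fun b => by simpa using h.sub_lt b a)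

theorem Ov.of_ndvd (h : Ov V p) {n : ℤ} (d : ¬ (p : ℤ) ∣ n) : V n = 1 := by
  obtain ⟨u, v, e⟩ := (Nat.prime_iff_prime_int.1 h.prime).irreducible.coprime_iff_not_dvd.2 d
  refine le_antisymm (h.le n) (not_lt.1 fun b => ?_)
  have := h.add_lt (h.of_dvd (dvd_mul_left (p : ℤ) u)) (x := (u * p : ℤ)) (y := (v * n : ℤ)) (by
    rw [Int.cast_mul, map_mul]
    exact mul_lt_one_of_nonneg_of_lt_one_right (h.le v) (V.nonneg _) b)
  rw [← Int.cast_add, e] at this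
  simp at this

theorem Ov.val (h : Ov V p) {f : ℍ → ℂ} (hf : f ∈ RR (vO h.na)) {τ : ℍ} (hj : V (jf τ) ≤ 1) :
    V (f τ) ≤ 1 := val_RR hf hj

theorem Ov.su_le (h : Ov V p) {A B : M2} (hA : 0 < A.det) (hB : 0 < B.det) {τ : ℍ}
    (hj : V (jf τ) ≤ 1) : V (su (A * B) τ) ≤ V (su B τ) := by
  rw [su_mul hA hB, map_mul]
  exact mul_le_of_le_one_left (V.nonneg _) (h.val (mo_RR hB (su_RR hA)) hj)

theorem Ov.cm (h : Ov V p) {l : Fm} {τ : ℍ} (d : disc l < 0) (e : evq l τ = 0) : V (jf τ) ≤ 1 :=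
  cm_int (O := vO h.na) (fun z => by simp [z, disc] at d) e

theorem pos_of {A B C D : M2} (e : A * B = C * D) (hA : 0 < A.det) (hB : 0 < B.det)
    (hD : 0 < D.det) : 0 < C.det := by
  have := pos_mul hA hB
  rw [e, Matrix.det_mul] at this
  exact (mul_pos_iff_of_pos_right hD).1 this

theorem one_of_pow {x : ℝ} (h0 : 0 ≤ x) (h : x ^ 12 < 1) : x < 1 :=
  lt_of_pow_lt_pow_left₀ 12 zero_le_one (by rwa [one_pow])

section typ
variable (h : Ov V p) {l : Fm} {τ : ℍ} (d : disc l < 0) (e : evq l τ = 0)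
include h d e

theorem Ov.typF (hq : 0 < q) (a : (q : ℤ) ∣ l.1) (u : V (l.1 * τ + l.2.1) = 1) :
    V (su (dg q) τ) = 1 := by
  obtain ⟨c, hc⟩ := a
  have e1 : 1 * En l l.2.1 = !![0, -l.2.2; c, l.2.1] * dg q := by
    simp [En, dg, hc, mul_comm]
  have := h.su_le (pos_of e1 (by simp) (En_pos d _) (dg_pos hq)) (dg_pos hq) (h.cm d e)
  rw [← e1, one_mul, su_fix (En_fix d e _), En_den, map_pow, u, one_pow] at this
  exact le_antisymm (h.val (su_RR (dg_pos hq)) (h.cm d e)) this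

theorem Ov.typV (hq : 0 < q) (a : (q : ℤ) ∣ l.1) (u : V (l.1 * τ) = 1) : V (sv q τ) = 1 := by
  obtain ⟨c, hc⟩ := a
  have e1 : dg q * En l 0 = !![-l.2.1, -l.2.2; c, 0] * !![(q : ℤ), 0; 0, q] := by
    simp [En, dg, hc, mul_comm]
  have h1 := h.su_le (pos_of e1 (dg_pos hq) (En_pos d _) (tri_pos 0 hq hq)) (tri_pos 0 hq hq)
    (h.cm d e)
  rw [← e1, su_mul (dg_pos hq) (En_pos d _), su_fix (En_fix d e _), En_fix d e, En_den, map_mul,
    map_pow, Int.cast_zero, add_zero, u, one_pow, mul_one, su_sc hq] at h1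
  refine le_antisymm (h.val (sv_RR hq) (h.cm d e)) ?_
  rwa [sv, map_div₀, one_le_div (V.pos (su_ne (dg_pos hq) τ))]

end typ

/-- **the canonical subgroup is unique** -/
theorem Ov.uniq (h : Ov V p) {τ : ℍ} (hj : V (jf τ) ≤ 1) (hF : V (su (dg p) τ) = 1)
    {γ : SL(2, ℤ)} (hγ : γ ∉ Gamma0 p) : V (su (dg p) (γ • τ)) ≤ V p ^ 12 := by
  have m := su_RR (O := vO h.na) (dg_pos h.prime.pos)
  have p1 : (p : ℂ) ≠ 0 := by exact_mod_cast h.prime.ne_zero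
  have p0 := pow_ne_zero 12 p1
  have := h.val (RR_div (mul_mem m (SL_RR γ m)) (p ^ 12)⁻¹ fun g => by
    by_cases hg : g ∈ Gamma0 p
    · obtain ⟨u, h1, h2⟩ := cusp_p (O := vO h.na) h.prime (γ := γ * g) fun e =>
        hγ ((Subgroup.mul_mem_cancel_right _ hg).1 e)
      refine Iq_sm (one_mem _) (mul_mem (m.2.2 g) h1) fun σ => ?_
      simp only [Pi.mul_apply, ← mul_smul, h2]
      field_simp
    · obtain ⟨u, h1, h2⟩ := cusp_p (O := vO h.na) h.prime hg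
      refine Iq_sm (one_mem _) (mul_mem h1 (m.2.2 (γ * g))) fun σ => ?_
      simp only [Pi.mul_apply, ← mul_smul, h2]
      field_simp) hj
  rwa [map_mul, Pi.mul_apply, map_mul, hF, one_mul, map_inv₀, inv_mul_le_iff₀ (V.pos p0), mul_one,
    map_pow] at this

section st
variable (h : Ov V p) {l : Fm} {τ : ℍ} (d : disc l < 0) (e : evq l τ = 0)
include h d e

theorem Ov.st_lt (hF : V (su (dg p) τ) = 1) {k : ℤ} {M : M2} {γ : SL(2, ℤ)} (hγ : γ ∉ Gamma0 p)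
    (e1 : dg p * En l k = M * (dg p * γ)) : V (l.1 * τ + k) < 1 := by
  have p0 := dg_pos h.prime.pos
  have h1 := h.su_le (pos_of e1 p0 (En_pos d _) (pos_mul p0 (SL_pos γ))) (pos_mul p0 (SL_pos γ))
    (h.cm d e)
  rw [← e1, su_mul p0 (En_pos d _), su_fix (En_fix d e _), En_fix d e, En_den, map_mul, map_pow,
    hF, one_mul, su_r p0] at h1
  exact one_of_pow (V.nonneg _) ((h1.trans (h.uniq (h.cm d e) hF hγ)).trans_lt
    (pow_lt_one₀ (V.nonneg _) h.lt (by norm_num)))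

/-- **endomorphisms keep the canonical subgroup** -/
theorem Ov.st (hF : V (su (dg p) τ) = 1) : V (l.1 * τ) < 1 ∧ (p : ℤ) ∣ l.1 := by
  have h1 := h.st_lt d e hF (k := 0) (M := !![l.2.2, -p * l.2.1; 0, l.1])
    (γ := Hd.mk 0 (-1) 1 0 (by simp)) (fun m => (Nat.prime_iff_prime_int.1 h.prime).not_dvd_one
      (Hd.g0_dvd.1 m)) (by simp [En, dg, Hd.mk, mul_comm])
  rw [Int.cast_zero, add_zero] at h1
  refine ⟨h1, by_contra fun a => ?_⟩
  have h2 := h.st_lt d e hF (k := 1) (M := !![1 - l.2.1 + l.1 * l.2.2, -p * l.2.2; 0, 1])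
    (γ := Hd.mk 1 0 l.1 1 (by simp)) (fun m => a (Hd.g0_dvd.1 m)) (by
      simp [En, dg, Hd.mk]
      ring)
  simpa using h.sub_lt h2 h1

/-- split forms are ordinary -/
theorem Ov.ord (c : (p : ℤ) ∣ l.2.2) (b : ¬ (p : ℤ) ∣ l.2.1) (a : V (l.1 * τ) < 1) :
    ∃ γ : SL(2, ℤ), V (su (dg p) (γ • τ)) = 1 := by
  obtain ⟨u, v, huv⟩ := (Nat.prime_iff_prime_int.1 h.prime).irreducible.coprime_iff_not_dvd.2 b
  obtain ⟨k, hk⟩ : ∃ k, k = -v * l.1 := ⟨_, rfl⟩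
  obtain ⟨γ, hγ⟩ : ∃ γ, γ = Hd.mk 1 0 k 1 (by simp) := ⟨_, rfl⟩
  obtain ⟨z, rfl⟩ : ∃ z, τ = γ • z := ⟨γ⁻¹ • τ, (smul_inv_smul _ _).symm⟩
  refine ⟨γ⁻¹, ?_⟩
  have e1 := (Hd.root_fa l γ z).2 e
  have e2 : fa l γ = (l.1 + l.2.1 * k + l.2.2 * k ^ 2, l.2.1 + 2 * l.2.2 * k, l.2.2) := by
    simp [hγ, Hd.fa_mk, Hd.val]
  have e3 : ((γ • z : ℍ) : ℂ) * (k * z + 1) = z := by
    have := Hd.den_ne γ z
    rw [Hd.coe_sm, hγ] at *
    simpa [Hd.mk] using div_mul_cancel₀ _ this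
  have e4 : ((fa l γ).1 * z : ℂ) = l.1 * (γ • z : ℍ) - (l.2.2 * k : ℤ) := by
    have n : (k * z + 1 : ℂ) ≠ 0 := fun z0 => z.ne_zero (by rw [← e3, z0, mul_zero])
    rw [e2] at e1 ⊢
    rw [evq] at e1
    refine mul_right_cancel₀ n ?_
    push_cast at e1 ⊢
    linear_combination k * e1 - l.1 * e3
  rw [inv_smul_smul]
  refine h.typF ((Hd.disc_fa l γ).trans_lt d) e1 h.prime.pos ?_ ?_
  · rw [e2]
    refine dvd_add ⟨u * l.1, ?_⟩ (c.mul_right _)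
    rw [hk]
    linear_combination -l.1 * huv
  · have b' : V ((fa l γ).2.1 : ℤ) = 1 := h.of_ndvd (by
      rw [e2]
      exact fun m => b ((dvd_add_left ((c.mul_left 2).mul_right k)).1 m))
    rw [h.add_eq (by rw [b', e4]; exact h.sub_lt a (h.of_dvd (c.mul_right k))), b']

end st

end Vale.Agent.P004Z.Fin
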